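import Vale.Agent.P183RL.Defs

/-!
Transport along a realisation; the local structure theorems from their global cases.
-/

set_option autoImplicit false
set_option linter.all false

namespace Vale.Agent.P183NK

open Subgroup Vale.Agent.P183A

namespace FS

variable {p : ℕ} [Fact p.Prime] {V : Type} [AddCommGroup V] [Module (ZMod p) V]
  {V' : Type} [AddCommGroup V'] [Module (ZMod p) V']

lemma uni_iff (S : FS p V) (x : S.E) :
    S.st (1 + x) * (1 + x) = 1 ↔ S.st x + x + S.st x * x = 0 := by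
  have : S.st (1 + x) * (1 + x) = 1 + (S.st x + x + S.st x * x) := by
    rw [st_add, st_one]; noncomm_ring
  rw [this, add_eq_left]

namespace Rl

variable {S : FS p V} {J : S.NR} {S' : FS p V'} {J' : S'.NR} {φ : S.E → S'.E}
  (h : Rl S J S' J' φ)
include h

lemma zero : φ 0 = 0 := by
  have := h.add 0 (zero_mem _) 0 (zero_mem _)
  rw [add_zero] at this
  exact left_eq_add.1 this

lemma neg {x : S.E} (hx : x ∈ J) : φ (-x) = -φ x := by
  rw [eq_neg_iff_add_eq_zero, ← h.add _ (neg_mem hx) _ hx, neg_add_cancel, h.zero]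

lemma sub {x y : S.E} (hx : x ∈ J) (hy : y ∈ J) : φ (x - y) = φ x - φ y := by
  rw [sub_eq_add_neg, h.add _ hx _ (neg_mem hy), h.neg hy, sub_eq_add_neg]

lemma eq_iff {x y : S.E} (hx : x ∈ J) (hy : y ∈ J) : φ x = φ y ↔ x = y :=
  ⟨fun e => sub_eq_zero.1 (h.inj _ (sub_mem hx hy) (by rw [h.sub hx hy, e, sub_self])),
    fun e => by rw [e]⟩

lemma star' : ∀ y ∈ J', S'.st y ∈ J' := fun y hy => by
  obtain ⟨x, hx, rfl⟩ := h.surj y hy
  rw [← h.st x hx]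
  exact h.mem _ (h.star x hx)

lemma uni {x : S.E} (hx : x ∈ J) :
    S.st (1 + x) * (1 + x) = 1 ↔ S'.st (1 + φ x) * (1 + φ x) = 1 := by
  have hs := h.star x hx
  rw [uni_iff, uni_iff, ← h.st x hx, ← h.mul _ hs _ hx, ← h.add _ hs _ hx,
    ← h.add _ (add_mem hs hx) _ (mul_mem hs hx), ← h.zero,
    h.eq_iff (add_mem (add_mem hs hx) (mul_mem hs hx)) (zero_mem _)]

lemma one_add_mul {a b : S.E} (ha : a - 1 ∈ J) (hb : b - 1 ∈ J) :
    (1 + φ (a - 1)) * (1 + φ (b - 1)) = 1 + φ (a * b - 1) := by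
  have : a * b - 1 = (a - 1) * (b - 1) + (a - 1) + (b - 1) := by noncomm_ring
  rw [this, h.add _ (add_mem (mul_mem ha hb) ha) _ hb, h.add _ (mul_mem ha hb) _ ha, h.mul _ ha _ hb]
  noncomm_ring

lemma mul_left {a x : S.E} (ha : a - 1 ∈ J) (hx : x ∈ J) : φ (a * x) = (1 + φ (a - 1)) * φ x := by
  have : a * x = x + (a - 1) * x := by noncomm_ring
  rw [this, h.add _ hx _ (mul_mem ha hx), h.mul _ ha _ hx, add_mul, one_mul]

lemma mul_right {a x : S.E} (ha : a - 1 ∈ J) (hx : x ∈ J) : φ (x * a) = φ x * (1 + φ (a - 1)) := by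
  have : x * a = x + x * (a - 1) := by noncomm_ring
  rw [this, h.add _ hx _ (mul_mem hx ha), h.mul _ hx _ ha, mul_add, mul_one]

omit h in
lemma mem_left {a x : S.E} (ha : a - 1 ∈ J) (hx : x ∈ J) : a * x ∈ J := by
  have : a * x = x + (a - 1) * x := by noncomm_ring
  rw [this]
  exact add_mem hx (mul_mem ha hx)

omit h in
lemma mem_right {a x : S.E} (ha : a - 1 ∈ J) (hx : x ∈ J) : x * a ∈ J := by
  have : x * a = x + x * (a - 1) := by noncomm_ring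
  rw [this]
  exact add_mem hx (mul_mem hx ha)

lemma mem_ctr {e x : S.E} {e' : S'.E} (hJ : S.Loc J e) (hJ' : S'.Loc J' e') (hx : x ∈ J) :
    φ x ∈ S'.ctr J' e' ↔ x ∈ S.ctr J e := by
  constructor
  · intro hc
    refine ⟨hx, hJ.left x hx, hJ.right x hx, fun d hd => ?_⟩
    rw [← h.eq_iff (mul_mem hx hd) (mul_mem hd hx), h.mul _ hx _ hd, h.mul _ hd _ hx]
    exact hc.2.2.2 _ (h.mem d hd)
  · intro hc
    refine ⟨h.mem x hx, hJ'.left _ (h.mem x hx), hJ'.right _ (h.mem x hx), fun d hd => ?_⟩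
    obtain ⟨y, hy, rfl⟩ := h.surj d hd
    rw [← h.mul _ hx _ hy, ← h.mul _ hy _ hx, hc.2.2.2 y hy]

lemma injOn : Set.InjOn φ J := fun _ hx _ hy e => (h.eq_iff hx hy).1 e

lemma ncard_eq {A : Set S.E} {A' : Set S'.E} (hA : A ⊆ J) (h1 : ∀ x ∈ A, φ x ∈ A')
    (h2 : ∀ y ∈ A', ∃ x ∈ A, φ x = y) : A'.ncard = A.ncard := by
  have : A' = φ '' A := Set.ext fun y => ⟨h2 y, by rintro ⟨x, hx, rfl⟩; exact h1 x hx⟩
  rw [this, (h.injOn.mono hA).ncard_image]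

lemma card_eq : Nat.card J' = Nat.card J :=
  h.ncard_eq (A := J) (A' := J') le_rfl h.mem h.surj

lemma card_ctr {e : S.E} {e' : S'.E} (hJ : S.Loc J e) (hJ' : S'.Loc J' e') :
    Nat.card (S'.ctr J' e') = Nat.card (S.ctr J e) :=
  h.ncard_eq (A := S.ctr J e) (A' := S'.ctr J' e') (fun _ hx => hx.1)
    (fun x hx => (h.mem_ctr hJ hJ' hx.1).2 hx) fun y hy => by
      obtain ⟨x, hx, rfl⟩ := h.surj y hy.1
      exact ⟨x, (h.mem_ctr hJ hJ' hx).1 hy, rfl⟩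

lemma deg {e : S.E} {e' : S'.E} (hJ : S.Loc J e) (hJ' : S'.Loc J' e') {m : ℕ} :
    S'.Deg J' e' m ↔ S.Deg J e m := by
  rw [Deg, Deg, h.card_eq, h.card_ctr hJ hJ']

/-- the image of a subring -/
def img (R : S.NR) (hR : R ≤ J) : S'.NR where
  carrier := {y | ∃ x ∈ R, φ x = y}
  add_mem' := by
    rintro _ _ ⟨a, ha, rfl⟩ ⟨b, hb, rfl⟩
    exact ⟨a + b, add_mem ha hb, h.add _ (hR ha) _ (hR hb)⟩
  zero_mem' := ⟨0, zero_mem _, h.zero⟩
  mul_mem' := by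
    rintro _ _ ⟨a, ha, rfl⟩ ⟨b, hb, rfl⟩
    exact ⟨a * b, mul_mem ha hb, h.mul _ (hR ha) _ (hR hb)⟩
  neg_mem' := by
    rintro _ ⟨a, ha, rfl⟩
    exact ⟨-a, neg_mem ha, h.neg (hR ha)⟩

lemma mem_img {R : S.NR} (hR : R ≤ J) {y : S'.E} : y ∈ h.img R hR ↔ ∃ x ∈ R, φ x = y := Iff.rfl

lemma mem_img' {R : S.NR} (hR : R ≤ J) {x : S.E} (hx : x ∈ J) : φ x ∈ h.img R hR ↔ x ∈ R :=
  ⟨fun ⟨y, hy, e⟩ => (h.eq_iff (hR hy) hx).1 e ▸ hy, fun hx => ⟨x, hx, rfl⟩⟩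

lemma img_le {R : S.NR} (hR : R ≤ J) : h.img R hR ≤ J' := by
  rintro _ ⟨x, hx, rfl⟩
  exact h.mem x (hR hx)

/-- the preimage of a subring -/
def pre (R : S'.NR) : S.NR where
  carrier := {x | x ∈ J ∧ φ x ∈ R}
  add_mem' := fun ha hb => ⟨add_mem ha.1 hb.1, by rw [h.add _ ha.1 _ hb.1]; exact add_mem ha.2 hb.2⟩
  zero_mem' := ⟨zero_mem _, by rw [h.zero]; exact zero_mem _⟩
  mul_mem' := fun ha hb => ⟨mul_mem ha.1 hb.1, by rw [h.mul _ ha.1 _ hb.1]; exact mul_mem ha.2 hb.2⟩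
  neg_mem' := fun ha => ⟨neg_mem ha.1, by rw [h.neg ha.1]; exact neg_mem ha.2⟩

lemma loc {e : S.E} (hJ : S.Loc J e) : S'.Loc J' (φ e) where
  mem := h.mem e hJ.mem
  ne := fun e0 => hJ.ne (h.inj e hJ.mem e0)
  symm := by rw [← h.st e hJ.mem, hJ.symm]
  left := fun y hy => by
    obtain ⟨x, hx, rfl⟩ := h.surj y hy
    rw [← h.mul _ hJ.mem _ hx, hJ.left x hx]
  right := fun y hy => by
    obtain ⟨x, hx, rfl⟩ := h.surj y hy
    rw [← h.mul _ hx _ hJ.mem, hJ.right x hx]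
  star := h.star'

lemma simp {e : S.E} (hJ : S.Simp J e) : S'.Simp J' (φ e) where
  toLoc := h.loc hJ.toLoc
  simple := fun R hR hs hi => by
    rcases hJ.simple (h.pre R) (fun _ hx => hx.1)
      (fun x hx => ⟨h.star x hx.1, by rw [h.st x hx.1]; exact hs _ hx.2⟩)
      (fun x hx y hy => ⟨⟨mul_mem hx.1 hy, by rw [h.mul _ hx.1 _ hy]; exact (hi _ hx.2 _ (h.mem y hy)).1⟩,
        ⟨mul_mem hy hx.1, by rw [h.mul _ hy _ hx.1]; exact (hi _ hx.2 _ (h.mem y hy)).2⟩⟩) with e1 | e1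
    · left
      refine eq_bot_iff.2 fun y hy => ?_
      obtain ⟨x, hx, rfl⟩ := h.surj y (hR hy)
      have : x ∈ h.pre R := ⟨hx, hy⟩
      rw [e1, NonUnitalSubring.mem_bot] at this
      rw [this, h.zero]
      exact zero_mem _
    · right
      refine le_antisymm hR fun y hy => ?_
      obtain ⟨x, hx, rfl⟩ := h.surj y hy
      exact (e1.ge hx).2

lemma trans {V'' : Type} [AddCommGroup V''] [Module (ZMod p) V''] {S'' : FS p V''} {J'' : S''.NR}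
    {ψ : S'.E → S''.E} (h' : Rl S' J' S'' J'' ψ) : Rl S J S'' J'' fun x => ψ (φ x) where
  mem := fun x hx => h'.mem _ (h.mem x hx)
  surj := fun z hz => by
    obtain ⟨y, hy, rfl⟩ := h'.surj z hz
    obtain ⟨x, hx, rfl⟩ := h.surj y hy
    exact ⟨x, hx, rfl⟩
  inj := fun x hx e => h.inj x hx (h'.inj _ (h.mem x hx) e)
  add := fun x hx y hy => by rw [h.add x hx y hy, h'.add _ (h.mem x hx) _ (h.mem y hy)]
  mul := fun x hx y hy => by rw [h.mul x hx y hy, h'.mul _ (h.mem x hx) _ (h.mem y hy)]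
  star := h.star
  st := fun x hx => by rw [h.st x hx, h'.st _ (h.mem x hx)]
  q := fun x hx hu => (h.q x hx hu).trans (h'.q _ (h.mem x hx) ((h.uni hx).1 hu))

variable [Finite V] [Finite V']

/-- the induced map on isometry groups -/
def hom : S.iso J →* S'.Eˣ := MonoidHom.mk' (fun g =>
  { val := 1 + φ (g.1.1 - 1)
    inv := 1 + φ (g.1⁻¹.1 - 1)
    val_inv := by
      rw [h.one_add_mul (iso_sub g.2) (iso_sub (inv_mem g.2)), Units.mul_inv, sub_self, h.zero,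
        add_zero]
    inv_val := by
      rw [h.one_add_mul (iso_sub (inv_mem g.2)) (iso_sub g.2), Units.inv_mul, sub_self, h.zero,
        add_zero] })
  fun a b => Units.ext (h.one_add_mul (iso_sub a.2) (iso_sub b.2)).symm

lemma hom_val (g : S.iso J) : (h.hom g).1 = 1 + φ (g.1.1 - 1) := rfl

lemma hom_inj : Function.Injective h.hom := fun a b e => by
  have := congrArg Units.val e
  rw [h.hom_val, h.hom_val, add_right_inj, h.eq_iff (iso_sub a.2) (iso_sub b.2), sub_left_inj] at this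
  exact Subtype.ext (Units.ext this)

lemma hom_mem (g : S.iso J) : h.hom g ∈ S'.iso J' := by
  have hu : S.st (1 + (g.1.1 - 1)) * (1 + (g.1.1 - 1)) = 1 := by simpa using iso_uni g.2
  refine mem_iso.2 ⟨by rw [h.hom_val, add_sub_cancel_left]; exact h.mem _ (iso_sub g.2),
    (h.uni (iso_sub g.2)).1 hu, (h.q _ (iso_sub g.2) hu).1 fun v => ?_⟩
  simpa using iso_q g.2 v

lemma hom_surj {g' : S'.Eˣ} (hg : g' ∈ S'.iso J') : ∃ g, h.hom g = g' := by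
  obtain ⟨x, hx, e1⟩ := h.surj _ (iso_sub hg)
  have e2 : 1 + φ x = g'.1 := by rw [e1, add_sub_cancel]
  have hu : S.st (1 + x) * (1 + x) = 1 := (h.uni hx).2 (by rw [e2]; exact iso_uni hg)
  have hq := (h.q x hx hu).2 fun v => by rw [e2]; exact iso_q hg v
  refine ⟨⟨⟨1 + x, S.st (1 + x), mul_eq_one_comm.1 hu, hu⟩, mem_iso.2 ⟨by simpa using hx, hu, hq⟩⟩,
    Units.ext ?_⟩
  rw [h.hom_val, ← e2]
  simp

lemma map_top : (⊤ : Subgroup (S.iso J)).map h.hom = S'.iso J' := by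
  refine le_antisymm ?_ fun g hg => ?_
  · rintro _ ⟨g, -, rfl⟩
    exact h.hom_mem g
  · obtain ⟨k, rfl⟩ := h.hom_surj hg
    exact ⟨k, trivial, rfl⟩

lemma map_comm : (⁅(⊤ : Subgroup (S.iso J)), (⊤ : Subgroup (S.iso J))⁆).map h.hom = S'.om J' := by
  rw [map_commutator, h.map_top, om]

omit h [Finite V] [Finite V'] in
lemma map_comm' :
    (⁅(⊤ : Subgroup (S.iso J)), (⊤ : Subgroup (S.iso J))⁆).map (S.iso J).subtype = S.om J := by
  rw [map_commutator, ← MonoidHom.range_eq_map, range_subtype, om]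

lemma hom_om {g : S.iso J} : h.hom g ∈ S'.om J' ↔ g.1 ∈ S.om J := by
  rw [← h.map_comm, ← map_comm', mem_map_iff_mem h.hom_inj]
  exact (mem_map_iff_mem (S.iso J).subtype_injective).symm

lemma om_surj {g' : S'.Eˣ} (hg : g' ∈ S'.om J') : ∃ g : S.iso J, g.1 ∈ S.om J ∧ h.hom g = g' := by
  obtain ⟨g, rfl⟩ := h.hom_surj (om_le_iso _ hg)
  exact ⟨g, h.hom_om.1 hg, rfl⟩

lemma hom_mul (g : S.iso J) {x : S.E} (hx : x ∈ J) : φ (g.1.1 * x) = (h.hom g).1 * φ x :=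
  h.mul_left (iso_sub g.2) hx

lemma mul_hom (g : S.iso J) {x : S.E} (hx : x ∈ J) : φ (x * g.1.1) = φ x * (h.hom g).1 :=
  h.mul_right (iso_sub g.2) hx

lemma hom_conj (g : S.iso J) {x : S.E} (hx : x ∈ J) :
    φ (g.1.1 * x * g.1⁻¹.1) = (h.hom g).1 * φ x * (h.hom g)⁻¹.1 := by
  rw [← map_inv, ← h.hom_mul g hx]
  exact h.mul_hom g⁻¹ (mem_left (iso_sub g.2) hx)

omit h [Finite V'] in
lemma conj_mem {g : S.Eˣ} (hg : g ∈ S.iso J) {x : S.E} (hx : x ∈ J) : g.1 * x * g⁻¹.1 ∈ J :=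
  mem_right (iso_sub (inv_mem hg)) (mem_left (iso_sub hg) hx)

theorem perfect (h1 : S'.om J' ≤ ⁅S'.om J', S'.om J'⁆) : S.om J ≤ ⁅S.om J, S.om J⁆ := by
  rw [← h.map_comm, ← map_commutator, map_le_map_iff_of_injective h.hom_inj] at h1
  rw [← map_comm', ← map_commutator]
  exact map_mono h1

theorem normal (h1 : ∀ X ≤ S'.iso J', Nm (S'.om J') X →
      (∀ g ∈ X, ∀ x ∈ J', g.1 * x = x * g.1) ∨ S'.om J' ≤ X) :
    ∀ X ≤ S.iso J, Nm (S.om J) X → (∀ g ∈ X, ∀ x ∈ J, g.1 * x = x * g.1) ∨ S.om J ≤ X := by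
  intro X hX hN
  rcases h1 ((X.subgroupOf (S.iso J)).map h.hom) (by rw [← h.map_top]; exact map_mono le_top) (by
    rintro g hg _ ⟨k, hk, rfl⟩
    obtain ⟨g, hg1, rfl⟩ := h.om_surj hg
    exact ⟨g * k * g⁻¹, hN _ hg1 _ hk, by simp⟩) with e1 | e1
  · left
    intro g hg x hx
    have := e1 _ ⟨⟨g, hX hg⟩, hg, rfl⟩ _ (h.mem x hx)
    rwa [← h.hom_mul _ hx, ← h.mul_hom _ hx, h.eq_iff (mem_left (iso_sub (hX hg)) hx)
      (mem_right (iso_sub (hX hg)) hx)] at this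
  · right
    intro g hg
    exact (mem_map_iff_mem h.hom_inj).1 (e1 ((h.hom_om (g := ⟨g, om_le_iso _ hg⟩)).2 hg))

theorem invar {e : S.E} {e' : S'.E} (hJ : S.Loc J e) (hJ' : S'.Loc J' e')
    (h1 : ∀ R ≤ J', (∀ x ∈ R, S'.st x ∈ R) → S'.NmR (S'.om J') R → R ≤ S'.ctr J' e' ∨ R = J') :
    ∀ R ≤ J, (∀ x ∈ R, S.st x ∈ R) → S.NmR (S.om J) R → R ≤ S.ctr J e ∨ R = J := by
  intro R hR hs hN
  rcases h1 (h.img R hR) (h.img_le hR) (by
    rintro _ ⟨x, hx, rfl⟩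
    exact ⟨_, hs x hx, h.st x (hR hx)⟩) (by
    rintro g hg _ ⟨x, hx, rfl⟩
    obtain ⟨g, hg1, rfl⟩ := h.om_surj hg
    exact ⟨_, hN _ hg1 x hx, h.hom_conj g (hR hx)⟩) with e1 | e1
  · exact Or.inl fun x hx => (h.mem_ctr hJ hJ' (hR hx)).1 (e1 ⟨x, hx, rfl⟩)
  · exact Or.inr (le_antisymm hR fun x hx => (h.mem_img' hR hx).1 (e1.ge (h.mem x hx)))

theorem ncard_conj {x : S.E} (hx : x ∈ J) :
    Set.ncard {y | ∃ g ∈ S'.om J', y = g.1 * φ x * g⁻¹.1} =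
      Set.ncard {y | ∃ g ∈ S.om J, y = g.1 * x * g⁻¹.1} := by
  refine h.ncard_eq ?_ ?_ ?_
  · rintro _ ⟨g, hg, rfl⟩
    exact conj_mem (om_le_iso _ hg) hx
  · rintro _ ⟨g, hg, rfl⟩
    exact ⟨_, (h.hom_om (g := ⟨g, om_le_iso _ hg⟩)).2 hg, h.hom_conj ⟨g, om_le_iso _ hg⟩ hx⟩
  · rintro _ ⟨g, hg, rfl⟩
    obtain ⟨g, hg1, rfl⟩ := h.om_surj hg
    exact ⟨_, ⟨g, hg1, rfl⟩, h.hom_conj g hx⟩

omit [Finite V] [Finite V'] in
theorem ncard_sym {e : S.E} {e' : S'.E} (hJ : S.Loc J e) (hJ' : S'.Loc J' e') :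
    Set.ncard {z | z ∈ S'.ctr J' e' ∧ S'.st z = z} = Set.ncard {z | z ∈ S.ctr J e ∧ S.st z = z} := by
  refine h.ncard_eq (fun _ hx => hx.1.1) (fun x hx => ⟨(h.mem_ctr hJ hJ' hx.1.1).2 hx.1, ?_⟩) ?_
  · rw [← h.st x hx.1.1, hx.2]
  · rintro y ⟨hy, hs⟩
    obtain ⟨x, hx, rfl⟩ := h.surj y hy.1
    rw [← h.st x hx, h.eq_iff (h.star x hx) hx] at hs
    exact ⟨x, ⟨(h.mem_ctr hJ hJ' hx).1 hy, hs⟩, rfl⟩

end Rl

end FS

open FS

/-- the realisation of a ring of degree `m` has rank `m` -/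
theorem rank_of_deg (hk : RKg) {p : ℕ} [Fact p.Prime] {V : Type} [AddCommGroup V]
    [Module (ZMod p) V] [Finite V] {S : FS p V} {Z : S.NR} (hZ : S.Scal Z 1)
    (hc : S.ctr (S.cent Z 1) 1 = Z) {m : ℕ} (hm : S.Deg (S.cent Z 1) 1 m) : S.Rank Z 1 m := by
  obtain ⟨r, h1, h2⟩ := hk p V S Z hZ
  rw [Deg, hc, h2] at hm
  have := Nat.pow_right_injective hZ.two_le_card hm
  rwa [← Nat.mul_self_inj.1 this]

theorem n1_of (hr : RL) (hk : RKg) {c : ℕ} (h : N1g c) : N1 c := by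
  intro p _ V _ _ _ S J e m hJ hT hD hc
  obtain ⟨V', _, _, _, S', Z, φ, hZ, -, hC, hφ, -⟩ := hr p V S J e hJ hT
  obtain ⟨h1, h2⟩ := h p V' S' Z m hZ
    (rank_of_deg hk hZ hC ((hφ.deg hJ.toLoc hZ.toLoc.cent).2 hD)) hc
  exact ⟨hφ.perfect h1, hφ.normal h2⟩

theorem n2_of (hr : RL) (hk : RKg) {c : ℕ} (h : N2g c) : N2 c := by
  intro p _ V _ _ _ S J e m hJ hT hD hc
  obtain ⟨V', _, _, _, S', Z, φ, hZ, -, hC, hφ, -⟩ := hr p V S J e hJ hT
  refine hφ.invar hJ.toLoc hZ.toLoc.cent ?_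
  rw [hC]
  exact h p V' S' Z m hZ (rank_of_deg hk hZ hC ((hφ.deg hJ.toLoc hZ.toLoc.cent).2 hD)) hc

theorem fam_of (hr : RL) {c : ℕ} (h : FAMg c) : FAM c := by
  intro p _ V _ _ _ S J e hJ hT x hx hs hn
  obtain ⟨V', _, _, _, S', Z, φ, hZ, hT', hC, hφ, -⟩ := hr p V S J e hJ hT
  rw [← hφ.ncard_conj hx, ← hφ.ncard_sym hJ.toLoc hZ.toLoc.cent, hC]
  refine h p V' S' Z hZ hT' _ (hφ.mem x hx) (by rw [← hφ.st x hx, hs]) fun hz => hn ?_
  rw [← hφ.mem_ctr hJ.toLoc hZ.toLoc.cent hx, hC]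
  exact hz

end Vale.Agent.P183NK
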