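import Vale.Agent.P183RL.MF
import Vale.Agent.P183RL.Tr

/-!
The realisation theorem.
-/

set_option autoImplicit false
set_option linter.all false

namespace Vale.Agent.P183NK

open Vale.Agent.P183A

variable {p : ℕ} [Fact p.Prime] {V : Type} [AddCommGroup V] [Module (ZMod p) V]

lemma rl_rep [Finite V] (B : LinearMap.BilinForm (ZMod p) V) (hB : ∀ y, (∀ x, B x y = 0) → y = 0)
    {W : Type} [AddCommGroup W] [Module (ZMod p) W] (C : V →ₗ[ZMod p] W →ₗ[ZMod p] ZMod p) :
    ∃ d : W →ₗ[ZMod p] V, ∀ u w, C u w = B u (d w) := by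
  have hi : Function.Injective (LinearMap.flip B) := LinearMap.ker_eq_bot.1 (eq_bot_iff.2 fun y hy =>
    hB y fun x => congrArg (fun f : V →ₗ[ZMod p] ZMod p => f x) hy)
  let E : V ≃ₗ[ZMod p] Module.Dual (ZMod p) V :=
    (LinearMap.flip B).linearEquivOfInjective hi Subspace.dual_finrank_eq.symm
  refine ⟨E.symm.toLinearMap ∘ₗ C.flip, fun u w => ?_⟩
  exact (congrArg (fun f : Module.Dual (ZMod p) V => f u) (E.apply_symm_apply (C.flip w))).symm

namespace FS

/-- a form space from its forms -/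
noncomputable def ofForm [Finite V] (B : LinearMap.BilinForm (ZMod p) V) (q : V → ZMod p)
    (orth : Prop) (h1 : ∀ x, (∀ y, B x y = 0) → x = 0) (h2 : ∀ y, (∀ x, B x y = 0) → y = 0)
    (h3 : orth → ∀ x y, q (x + y) = q x + q y + B x y)
    (h4 : ∀ (c : ZMod p) x, q (c • x) = c * c * q x) (h5 : ¬ orth → ∀ x, q x = 0 ∧ B x x = 0) :
    FS p V where
  β := B
  q := q
  orth := orth
  st := fun a => (rl_rep B h2 (B ∘ₗ a)).choose
  st_spec := fun a => (rl_rep B h2 (B ∘ₗ a)).choose_spec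
  nondeg := h1
  q_add := h3
  q_smul := h4
  alt := h5

variable {S : FS p V}

/-- a form on a submodule for which the involution is the adjoint -/
def Cpt (S : FS p V) (J : S.NR) (M : Submodule (ZMod p) V) (B : LinearMap.BilinForm (ZMod p) M) :
    Prop := ∀ x ∈ J, ∀ u w, B (rres M x u) w = B u (rres M (S.st x) w)

/-- the vectors on which a unitary map preserves `q` -/
def qfix (S : FS p V) {g : S.E} (hg : S.st g * g = 1) : AddSubgroup V where
  carrier := {v | S.q (g v) = S.q v}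
  zero_mem' := by simp
  add_mem' := fun {a b} ha hb => by
    show S.q (g (a + b)) = S.q (a + b)
    by_cases ho : S.orth
    · rw [map_add, S.q_add ho, S.q_add ho, uni_β hg, ha, hb]
    · rw [(S.alt ho _).1, (S.alt ho _).1]
  neg_mem' := fun {a} ha => by
    show S.q (g (-a)) = S.q (-a)
    rw [map_neg, q_neg, q_neg, ha]

lemma Loc.q_of_e {J : S.NR} {e x : S.E} (h : S.Loc J e) (hx : x ∈ J)
    (hu : S.st (1 + x) * (1 + x) = 1) (hq : ∀ v, S.q ((1 + x) (e v)) = S.q (e v)) (v : V) :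
    S.q ((1 + x) v) = S.q v := by
  have h1 : v - e v ∈ S.qfix hu := by
    show S.q ((1 + x) (v - e v)) = S.q (v - e v)
    rw [LinearMap.add_apply, map_sub x, ← Module.End.mul_apply x, h.right x hx, sub_self, add_zero]
    rfl
  have := add_mem (show e v ∈ S.qfix hu from hq v) h1
  rwa [add_sub_cancel] at this

/-- in the second kind all unitary elements are isometries -/
theorem Simp.q_of_second [Finite V] {J : S.NR} {e : S.E} (h : S.Simp J e) (hT : S.TC J e)
    (h2 : ∃ z ∈ S.ctr J e, S.st z ≠ z) {x : S.E} (hx : x ∈ J) (hu : S.st (1 + x) * (1 + x) = 1)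
    (v : V) : S.q ((1 + x) v) = S.q v := by
  by_cases ho : S.orth
  swap
  · rw [(S.alt ho _).1, (S.alt ho _).1]
  by_cases hp : (2 : ZMod p) = 0
  swap
  · exact q_of_odd hp (uni_β hu v v)
  obtain ⟨z, hz, hz'⟩ := h2
  obtain ⟨θ, hθ, e1⟩ := h.exists_tr hp hz hz'
  have c1 : ∀ {y : S.E}, y ∈ S.ctr J e → ∀ {g : S.E}, g - 1 ∈ J → ∀ v, y (g v) = g (y v) := by
    intro y hy g hg v
    have := congrArg (fun f : S.E => f v) (hy.2.2.2 _ hg)
    simpa using this
  have hl := fun_eq_zero (X := {g | ∃ k ∈ S.iso J, k.1 = g}) h.symm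
    (by rintro _ ⟨k, hk, rfl⟩; exact iso_uni hk)
    (fun v hv hf => hT v hv fun g hg => hf _ ⟨g, hg, rfl⟩)
    (qdiff (fun v => S.q (e v)) (fun v => S.β (θ v) v) (fun v w => S.β (e v) w)
      (fun v w => by rw [map_add, S.q_add ho, ← β_idem h.symm, idem_app h.toLoc.idem])
      (fun v w => by
        have : S.β (θ w) v = S.β (S.st θ v) w := by
          rw [S.st_spec, S.β_comm, ε, if_pos ho, one_mul]
        simp only [map_add, LinearMap.add_apply, this, ← e1]
        ring))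
    (by
      rintro _ ⟨k, hk, rfl⟩ v
      show S.q (e (k.1 v)) - S.β (θ (k.1 v)) (k.1 v) = S.q (e v) - S.β (θ v) v
      rw [c1 h.toLoc.ctr.mem (iso_sub hk), c1 hθ (iso_sub hk), iso_q hk, iso_β hk])
    (fun v => by
      show S.q (e (e v)) - S.β (θ (e v)) (e v) = S.q (e v) - S.β (θ v) v
      rw [idem_app h.toLoc.idem, ← β_idem h.symm, ← Module.End.mul_apply θ, h.right θ hθ.1,
        ← Module.End.mul_apply e, h.left θ hθ.1])
  have hl' : ∀ v, S.q (e v) = S.β (θ v) v := fun v => sub_eq_zero.1 (hl v)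
  have hx' : (1 + x) - 1 ∈ J := by simpa using hx
  refine h.toLoc.q_of_e hx hu (fun v => ?_) v
  rw [← c1 h.toLoc.ctr.mem hx', hl', hl', c1 hθ hx', uni_β hu]

namespace MF

variable {J : S.NR} {e : S.E} {M : Submodule (ZMod p) V} {s : M →ₗ[ZMod p] S.E}
  (hJ : S.Simp J e) (h : S.MF J e M s)
include hJ h

lemma full_T (T : AddSubgroup V) (hT : ∀ u v, s u v ∈ T) (v : V) : e v ∈ T := by
  have := h.full (S.idl J (fun j => ∀ x ∈ J, ∀ v, x (j v) ∈ T) (fun x _ v => by simp)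
    (fun a b ha hb x hx v => by
      rw [LinearMap.add_apply, map_add]; exact add_mem (ha x hx v) (hb x hx v))
    (fun a ha x hx v => by rw [LinearMap.neg_apply, map_neg]; exact neg_mem (ha x hx v))
    (fun a _ ha y hy x hx v => ha _ (mul_mem hx hy) v))
    (idl_idl fun a _ ha y _ x hx v => ha x hx (y v))
    (fun u => ⟨h.s_mem u, fun x hx v => by
      rw [← Module.End.mul_apply, ← h.s_mul x hx]; exact hT _ _⟩)
  simpa [idem_app hJ.toLoc.idem] using (this.ge hJ.mem).2 e hJ.mem v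

lemma s_ne : ∃ u, s u ≠ 0 := by
  by_contra hc
  push Not at hc
  refine hJ.ne (LinearMap.ext fun v => ?_)
  exact h.full_T hJ ⊥ (fun u v => by simp [hc]) v

lemma nondeg {B : LinearMap.BilinForm (ZMod p) M} (hB : S.Cpt J M B)
    (hr : ∀ u w, B u w = 0 → B w u = 0) (h0 : B ≠ 0) (u : M) (hu : ∀ w, B u w = 0) : u = 0 := by
  rcases h.subm ((LinearMap.ker B).map M.subtype) (M.map_subtype_le _) (by
    rintro x hx _ ⟨v, hv, rfl⟩
    refine ⟨rres M x v, LinearMap.ext fun w => ?_, h.toSub.app hx v⟩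
    rw [hB x hx, show B v = 0 from hv]; rfl) with e1 | e1 | ⟨η, t, e1⟩
  · exact Subtype.ext (e1.le ⟨u, LinearMap.ext hu, rfl⟩)
  · refine absurd (LinearMap.ext fun v => ?_) h0
    obtain ⟨w, hw, e2⟩ := e1.ge v.2
    rwa [← show w = v from Subtype.ext e2]
  · have e2 : ∀ v w, B (rres M η v) w = 0 := fun v w => by
      obtain ⟨y, hy, e3⟩ := e1 v v.2
      rw [← show y = rres M η v from Subtype.ext (e3.trans (h.toSub.app t.mem.1 v).symm),
        show B y = 0 from hy]
      rfl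
    have t' := hJ.star η t.mem.1
    refine absurd (LinearMap.ext fun v => LinearMap.ext fun w => ?_) h0
    have e3 : v = rres M η v + rres M (S.st η) v := by
      rw [← LinearMap.add_apply, ← h.toSub.add t.mem.1 t', t.add, h.toSub.one hJ.mem]; rfl
    rw [e3, map_add, LinearMap.add_apply, e2, hB _ t', st_st, hr _ _ (e2 w v), add_zero]
    rfl

omit hJ h in
/-- the forms pulled back along two module homomorphisms -/
def bv (s : M →ₗ[ZMod p] S.E) (v w : V) : LinearMap.BilinForm (ZMod p) M :=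
  LinearMap.compl₁₂ S.β (LinearMap.applyₗ v ∘ₗ s) (LinearMap.applyₗ w ∘ₗ s)

omit hJ h in
lemma bv_apply (v w : V) (a b : M) : bv s v w a b = S.β (s a v) (s b w) := rfl

lemma bv_cpt (v w : V) : S.Cpt J M (bv s v w) := fun x hx a b => by
  rw [bv_apply, bv_apply, h.s_mul x hx, h.s_mul _ (hJ.star x hx), Module.End.mul_apply, S.st_spec]
  rfl

theorem exists_form : ∃ B : LinearMap.BilinForm (ZMod p) M, S.Cpt J M B ∧ B ≠ 0 ∧
    ((∀ u w, B u w = B w u) ∨ ∀ u, B u u = 0) := by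
  have : ∃ v w, bv s v w ≠ 0 := by
    by_contra hc
    push Not at hc
    obtain ⟨u, hu⟩ := h.s_ne hJ
    refine hu (S.st_eq_zero.1 (LinearMap.ext fun v => ?_))
    have := h.full_T hJ (S.ke (S.st (s u))) (fun a v => S.nondeg' _ fun w => by
      rw [← S.st_spec, ← bv_apply, hc]; rfl) v
    rwa [mem_ke, ← Module.End.mul_apply, hJ.right _ (hJ.star _ (h.s_mem u))] at this
  obtain ⟨v, w, h0⟩ := this
  have hc := h.bv_cpt hJ v w
  by_cases hs : ∀ a b, bv s v w a b = bv s v w b a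
  · exact ⟨_, hc, h0, Or.inl hs⟩
  · refine ⟨bv s v w - LinearMap.flip (bv s v w), fun x hx a b => ?_, fun e0 => hs fun a b => ?_,
      Or.inr fun u => sub_self _⟩
    · show bv s v w _ _ - bv s v w _ _ = bv s v w _ _ - bv s v w _ _
      rw [hc x hx, hc _ (hJ.star x hx), st_st]
    · exact sub_eq_zero.1 (congrArg (fun B : LinearMap.BilinForm (ZMod p) M => B a b) e0)

omit hJ h in
lemma refl_of_alt {B : LinearMap.BilinForm (ZMod p) M} (hB : ∀ u, B u u = 0) (u w : M)
    (e0 : B u w = 0) : B w u = 0 := by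
  have := hB (u + w)
  simpa [hB, e0] using this

omit hJ in
lemma s_act {x : S.E} (hx : x ∈ J) (u : M) (v : V) : s ((1 + rres M x) u) v = (1 + x) (s u v) := by
  rw [LinearMap.add_apply, map_add, h.s_mul x hx]; rfl

lemma q_of_s {x : S.E} (hx : x ∈ J) (hu : S.st (1 + x) * (1 + x) = 1)
    (hq : ∀ u v, S.q (s ((1 + rres M x) u) v) = S.q (s u v)) (v : V) : S.q ((1 + x) v) = S.q v :=
  hJ.toLoc.q_of_e hx hu (h.full_T hJ (S.qfix hu) fun u v => by
    have := hq u v
    rwa [h.s_act hx] at this) v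

variable [Finite V]

lemma fun_zero (hT : S.TC J e) (l : M →+ ZMod p)
    (hl : ∀ g ∈ S.iso J, ∀ u, l ((1 + rres M (g.1 - 1)) u) = l u) (u : M) : l u = 0 := by
  obtain ⟨B, hB, h0, hs⟩ := h.exists_form hJ
  have hr : ∀ u w, B u w = 0 → B w u = 0 := hs.elim (fun hs u w e0 => by rw [hs, e0]) refl_of_alt
  have hn : ∀ y, (∀ x, B x y = 0) → y = 0 := fun y hy => h.nondeg hJ hB hr h0 y fun x => hr _ _ (hy x)
  obtain ⟨d, hd⟩ := rl_rep B hn (W := ZMod p) (LinearMap.lsmul _ _ ∘ₗ l.toZModLinearMap p)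
  have h1 : ∀ u, l u = B u (d 1) := fun u => by simpa using hd u 1
  have h2 : d 1 = 0 := Subtype.ext (hT _ (h.le _ (d 1).2) fun g hg => by
    have : rres M (g.1 - 1) (d 1) = 0 := hn _ fun w => by
      have e1 := hB _ (iso_sub (inv_mem hg)) w (d 1)
      rw [st_sub, st_one, iso_st (inv_mem hg), inv_inv] at e1
      have e2 := hl _ (inv_mem hg) w
      rw [LinearMap.add_apply, map_add, Module.End.one_apply, add_eq_left] at e2
      rw [← e1, ← h1, e2]
    have e3 := congrArg Subtype.val this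
    rw [h.toSub.app (iso_sub hg)] at e3
    exact sub_eq_zero.1 e3)
  rw [h1, h2, map_zero]

omit [Finite V] in
lemma cpt_uni {B : LinearMap.BilinForm (ZMod p) M} (hB : S.Cpt J M B) {x : S.E} (hx : x ∈ J)
    (hu : S.st (1 + x) * (1 + x) = 1) (u w : M) :
    B ((1 + rres M x) u) ((1 + rres M x) w) = B u w := by
  have hs := hJ.star x hx
  have := congrArg (fun y : S.E => B u (rres M y w)) ((S.uni_iff x).1 hu)
  simp only [h.toSub.add (add_mem hs hx) (mul_mem hs hx), h.toSub.add hs hx, h.toSub.mul hs hx,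
    h.toSub.zero, LinearMap.add_apply, map_add, Module.End.mul_apply, LinearMap.zero_apply,
    map_zero] at this
  simp only [LinearMap.add_apply, map_add, Module.End.one_apply, hB x hx]
  linear_combination this

theorem realised (hT : S.TC J e) (S' : FS p M) (hβ : S.Cpt J M S'.β)
    (hq : ∀ x ∈ J, S.st (1 + x) * (1 + x) = 1 →
      ((∀ v, S.q ((1 + x) v) = S.q v) ↔ ∀ u, S'.q ((1 + rres M x) u) = S'.q u))
    (hc : ∀ x ∈ S.ctr J e, ∀ y ∈ S.ctr J e, x * S.st x = y * S.st y →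
      ∀ u, S'.q (rres M x u) = S'.q (rres M y u)) : S.Realised J e := by
  let J' : S'.NR :=
    { carrier := {y | ∃ x ∈ J, rres M x = y}
      add_mem' := by
        rintro _ _ ⟨a, ha, rfl⟩ ⟨b, hb, rfl⟩
        exact ⟨a + b, add_mem ha hb, h.toSub.add ha hb⟩
      zero_mem' := ⟨0, zero_mem _, h.toSub.zero⟩
      mul_mem' := by
        rintro _ _ ⟨a, ha, rfl⟩ ⟨b, hb, rfl⟩
        exact ⟨a * b, mul_mem ha hb, h.toSub.mul ha hb⟩
      neg_mem' := by
        rintro _ ⟨a, ha, rfl⟩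
        exact ⟨0 - a, sub_mem (zero_mem _) ha, by
          rw [h.toSub.sub (zero_mem _) ha, h.toSub.zero, zero_sub]⟩ }
  have hR : Rl S J S' J' (rres M) :=
    ⟨fun x hx => ⟨x, hx, rfl⟩, fun y hy => hy,
      fun x hx e0 => h.faith x hx fun u hu => by rw [← h.toSub.app hx ⟨u, hu⟩, e0]; rfl,
      fun x hx y hy => h.toSub.add hx hy, fun x hx y hy => h.toSub.mul hx hy, hJ.star,
      fun x hx => (S'.st_ext (hβ x hx)).symm, hq⟩
  have h1 := h.toSub.one hJ.mem
  have hS : S'.Simp J' 1 := h1 ▸ hR.simp hJ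
  have hZ : ∀ {y}, y ∈ S'.ctr J' 1 ↔ ∃ z ∈ S.ctr J e, rres M z = y := fun {y} =>
    ⟨fun hy => by
      obtain ⟨x, hx, rfl⟩ := hy.1
      exact ⟨x, (hR.mem_ctr hJ.toLoc hS.toLoc hx).1 hy, rfl⟩, by
      rintro ⟨z, hz, rfl⟩
      exact (hR.mem_ctr hJ.toLoc hS.toLoc hz.1).2 hz⟩
  have hC : S'.cent (S'.ctr J' 1) 1 = J' := le_antisymm
    (fun f hf => h.dens f fun z hz => hf.2.2 _ (hZ.2 ⟨z, hz, rfl⟩))
    fun y hy => mem_cent_one.2 fun d hd => (hd.2.2.2 y hy).symm
  refine ⟨M, inferInstance, inferInstance, inferInstance, S', S'.ctr J' 1, rres M,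
    hS.ctr_scal fun x₀ hx₀ y₀ hy₀ e1 => ?_, ?_, by rw [hC], hC.symm ▸ hR, h1⟩
  · obtain ⟨x, hx, rfl⟩ := hZ.1 hx₀
    obtain ⟨y, hy, rfl⟩ := hZ.1 hy₀
    refine hc x hx y hy ?_
    have hx' := hJ.star x hx.1
    have hy' := hJ.star y hy.1
    rwa [← hR.st x hx.1, ← hR.st y hy.1, ← hR.mul _ hx.1 _ hx', ← hR.mul _ hy.1 _ hy',
      hR.eq_iff (mul_mem hx.1 hx') (mul_mem hy.1 hy')] at e1
  · rw [hC]
    refine fun u _ hu => Subtype.ext (hT u (h.le u u.2) fun g hg => ?_)
    have := congrArg Subtype.val (hu _ (hR.hom_mem ⟨g, hg⟩))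
    rw [hR.hom_val, LinearMap.add_apply, Submodule.coe_add, h.toSub.app (iso_sub hg)] at this
    simpa using this

/-- the case where all unitary elements are isometries -/
theorem realised_uni (hT : S.TC J e)
    (hU : ∀ x ∈ J, S.st (1 + x) * (1 + x) = 1 → ∀ v, S.q ((1 + x) v) = S.q v) :
    S.Realised J e := by
  obtain ⟨B, hB, h0, hs⟩ := h.exists_form hJ
  have hr : ∀ u w, B u w = 0 → B w u = 0 := hs.elim (fun hs u w e0 => by rw [hs, e0]) refl_of_alt
  have hn := h.nondeg hJ hB hr h0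
  have hn' : ∀ y, (∀ x, B x y = 0) → y = 0 := fun y hy => hn y fun x => hr _ _ (hy x)
  by_cases ha : ∀ u, B u u = 0
  · exact h.realised hJ hT (ofForm B (fun _ => 0) False hn hn' False.elim (by simp)
      fun _ x => ⟨rfl, ha x⟩) hB (fun x hx hu => ⟨fun _ _ => rfl, fun _ => hU x hx hu⟩)
      fun _ _ _ _ _ _ => rfl
  have hs := hs.resolve_right ha
  have hp : (2 : ZMod p) ≠ 0 := fun hp => ha (h.fun_zero hJ hT
    (AddMonoidHom.mk' (fun u => B u u) fun u w => by
      simp only [map_add, LinearMap.add_apply, hs w u]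
      linear_combination B u w * hp)
    fun g hg u => h.cpt_uni hJ hB (iso_sub hg) (by simpa using iso_uni hg) u u)
  refine h.realised hJ hT (ofForm B (fun u => 2⁻¹ * B u u) True hn hn' (fun _ u w => ?_)
    (fun c u => by simp; ring) fun e0 => absurd trivial e0) hB
    (fun x hx hu => ⟨fun _ u => congrArg (2⁻¹ * ·) (h.cpt_uni hJ hB hx hu u u), fun _ => hU x hx hu⟩)
    fun x hx y hy e1 u => congrArg (2⁻¹ * ·) ?_
  · simp only [map_add, LinearMap.add_apply, hs w u]
    field_simp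
    ring
  · have hx' := hJ.toLoc.ctr.star x hx
    have hy' := hJ.toLoc.ctr.star y hy
    rw [hB x hx.1, hB y hy.1, ← Module.End.mul_apply, ← Module.End.mul_apply,
      ← h.toSub.mul hx'.1 hx.1, ← h.toSub.mul hy'.1 hy.1, hJ.ctr_comm hx' hx, hJ.ctr_comm hy' hy, e1]

omit h in
lemma sq_inj (hp : (2 : ZMod p) = 0) {x y : S.E} (hx : x ∈ S.ctr J e) (hy : y ∈ S.ctr J e)
    (e1 : x * x = y * y) : x = y := by
  refine sub_eq_zero.1 (hJ.ctr_red (sub_mem hx hy) ?_)
  have : (2 : ZMod p) • (y * y - x * y) = 0 := by rw [hp, zero_smul]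
  rw [sub_mul, mul_sub, mul_sub, hJ.ctr_comm hy hx, e1, ← this, two_smul]
  abel

omit h in
lemma sq_surj (hp : (2 : ZMod p) = 0) {z : S.E} (hz : z ∈ S.ctr J e) :
    ∃ y ∈ S.ctr J e, y * y = z := by
  obtain ⟨y, hy⟩ := Finite.surjective_of_injective (f := fun y : S.ctr J e => y * y)
    (fun a b e1 => Subtype.ext (sq_inj hJ hp a.2 b.2 (congrArg Subtype.val e1))) ⟨z, hz⟩
  exact ⟨y.1, y.2, congrArg Subtype.val hy⟩

/-- the orthogonal case in characteristic two -/
theorem realised_orth (hT : S.TC J e) (ho : S.orth) (hp : (2 : ZMod p) = 0)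
    (h1 : ∀ z ∈ S.ctr J e, S.st z = z) {v₁ : V} (h0 : bv s v₁ v₁ ≠ 0) : S.Realised J e := by
  have hB := h.bv_cpt hJ v₁ v₁
  have hr : ∀ u w, bv s v₁ v₁ u w = 0 → bv s v₁ v₁ w u = 0 := fun u w => S.β_symm_zero
  have hn := h.nondeg hJ hB hr h0
  have hn' : ∀ y, (∀ x, bv s v₁ v₁ x y = 0) → y = 0 := fun y hy => hn y fun x => hr _ _ (hy x)
  have ha : ∀ v (a b : M), S.q (s (a + b) v) = S.q (s a v) + S.q (s b v) + bv s v v a b :=
    fun v a b => by rw [map_add, LinearMap.add_apply, S.q_add ho, bv_apply]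
  have hcm : ∀ {μ x : S.E}, μ ∈ S.ctr J e → x ∈ J → ∀ u,
      rres M μ ((1 + rres M x) u) = (1 + rres M x) (rres M μ u) := fun hμ hx u => by
    rw [← Module.End.mul_apply, ← Module.End.mul_apply, mul_add, add_mul, ← h.toSub.mul hμ.1 hx,
      hμ.2.2.2 _ hx, h.toSub.mul hx hμ.1, mul_one, one_mul]
  have hi : ∀ g ∈ S.iso J, ∀ v u, S.q (s ((1 + rres M (g.1 - 1)) u) v) = S.q (s u v) :=
    fun g hg v u => by rw [h.s_act (iso_sub hg), add_sub_cancel, iso_q hg]
  have key : ∀ v, ∃ μ ∈ S.ctr J e, ∀ u, S.q (s u v) = S.q (s (rres M μ u) v₁) := fun v => by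
    obtain ⟨d, hd⟩ := rl_rep _ hn' (bv s v v)
    obtain ⟨z, hz, rfl⟩ := h.com d fun x hx => LinearMap.ext fun w => sub_eq_zero.1 (hn' _ fun u => by
      have e1 := h.bv_cpt hJ v v _ (hJ.star x hx) u w
      have e2 := hB _ (hJ.star x hx) u (d w)
      rw [st_st] at e1 e2
      rw [map_sub, Module.End.mul_apply, Module.End.mul_apply, ← hd, ← e1, ← e2, hd, sub_self])
    obtain ⟨μ, hμ, rfl⟩ := sq_surj hJ hp hz
    refine ⟨μ, hμ, fun u => sub_eq_zero.1 (h.fun_zero hJ hT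
      (qdiff (fun u => S.q (s u v)) (fun u => S.q (s (rres M μ u) v₁)) (fun a b => bv s v v a b) (ha v)
        fun a b => ?_) (fun g hg u => ?_) u)⟩
    · rw [map_add, ha, hB μ hμ.1, h1 μ hμ, hd, h.toSub.mul hμ.1 hμ.1]; rfl
    · show S.q (s _ v) - S.q (s (rres M μ _) v₁) = S.q (s u v) - S.q (s (rres M μ u) v₁)
      rw [hcm hμ (iso_sub hg), hi g hg, hi g hg]
  refine h.realised hJ hT (ofForm (bv s v₁ v₁) (fun u => S.q (s u v₁)) True hn hn' (fun _ => ha v₁)
    (fun c u => by rw [map_smul, LinearMap.smul_apply, S.q_smul]) fun e0 => absurd trivial e0) hB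
    (fun x hx hu => ⟨fun hq u => ?_, fun hq => h.q_of_s hJ hx hu fun u v => ?_⟩)
    fun x hx y hy e1 u => ?_
  · show S.q (s _ v₁) = S.q (s u v₁)
    rw [h.s_act hx, hq]
  · obtain ⟨μ, hμ, e1⟩ := key v
    rw [e1, e1, hcm hμ hx]
    exact hq _
  · rw [h1 x hx, h1 y hy] at e1
    rw [sq_inj hJ hp hx hy e1]

end MF

end FS

open FS

theorem rl : RL := by
  intro p _ V _ _ _ S J e hJ hT
  obtain ⟨M, s, h⟩ := hJ.exists_mf
  by_cases hU : ∀ x ∈ J, S.st (1 + x) * (1 + x) = 1 → ∀ v, S.q ((1 + x) v) = S.q v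
  · exact h.realised_uni hJ hT hU
  have ho : S.orth := by
    by_contra ho
    exact hU fun x _ _ v => by rw [(S.alt ho _).1, (S.alt ho _).1]
  have hp : (2 : ZMod p) = 0 := by
    by_contra hp
    exact hU fun x _ hu v => q_of_odd hp (uni_β hu v v)
  have h1 : ∀ z ∈ S.ctr J e, S.st z = z := by
    by_contra hc
    push Not at hc
    exact hU fun x hx hu => hJ.q_of_second hT hc hx hu
  have : ∃ v, MF.bv s v v ≠ 0 := by
    by_contra hc
    push Not at hc
    have hz : ∀ v u, S.q (s u v) = 0 := fun v => h.fun_zero hJ hT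
      (AddMonoidHom.mk' (fun u => S.q (s u v)) fun a b => by
        rw [map_add, LinearMap.add_apply, S.q_add ho, ← MF.bv_apply, hc]
        simp)
      fun g hg u => by
        show S.q (s _ v) = S.q (s u v)
        rw [h.s_act (iso_sub hg), add_sub_cancel, iso_q hg]
    exact hU fun x hx hu => h.q_of_s hJ hx hu fun u v => by rw [hz, hz]
  obtain ⟨v, hv⟩ := this
  exact h.realised_orth hJ hT ho hp h1 hv

theorem n1_of_global (hk : RKg) {c : ℕ} (h : N1g c) : N1 c := n1_of rl hk h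

theorem n2_of_global (hk : RKg) {c : ℕ} (h : N2g c) : N2 c := n2_of rl hk h

theorem fam_of_global {c : ℕ} (h : FAMg c) : FAM c := fam_of rl h

end Vale.Agent.P183NK
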