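import Vale.Agent.P183CF.CB3

/-!
Realisation of simple rings with involution: the global forms of the structure theorems and the
realisation relation.
-/

set_option autoImplicit false
set_option linter.all false

namespace Vale.Agent.P183NK

open Subgroup Vale.Agent.P183A

/-- Normal subgroup theorem, global case. -/
def N1g (c : ℕ) : Prop := AllFS fun _ _ _ _ _ S =>
  ∀ (Z : S.NR) (n : ℕ), S.Scal Z 1 → S.Rank Z 1 n → c ≤ n →
    S.om (S.cent Z 1) ≤ ⁅S.om (S.cent Z 1), S.om (S.cent Z 1)⁆ ∧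
      ∀ X ≤ S.iso (S.cent Z 1), Nm (S.om (S.cent Z 1)) X →
        (∀ g ∈ X, ∀ x ∈ S.cent Z 1, g.1 * x = x * g.1) ∨ S.om (S.cent Z 1) ≤ X

/-- Invariant subrings, global case. -/
def N2g (c : ℕ) : Prop := AllFS fun _ _ _ _ _ S =>
  ∀ (Z : S.NR) (n : ℕ), S.Scal Z 1 → S.Rank Z 1 n → c ≤ n →
    ∀ R ≤ S.cent Z 1, (∀ x ∈ R, S.st x ∈ R) → S.NmR (S.om (S.cent Z 1)) R →
      R ≤ Z ∨ R = S.cent Z 1

/-- Many conjugates, global case. -/
def FAMg (c : ℕ) : Prop := AllFS fun _ _ _ _ _ S =>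
  ∀ (Z : S.NR), S.Scal Z 1 → S.TC (S.cent Z 1) 1 → ∀ x ∈ S.cent Z 1, S.st x = x → x ∉ Z →
    Set.ncard {z | z ∈ Z ∧ S.st z = z} ≤
      c * Set.ncard {y | ∃ g ∈ S.om (S.cent Z 1), y = g.1 * x * g⁻¹.1}

/-- The space has a rank over a ring of scalars, and the full ring has this degree. -/
def RKg : Prop := AllFS fun _ _ _ _ _ S =>
  ∀ (Z : S.NR), S.Scal Z 1 → ∃ r, S.Rank Z 1 r ∧ Nat.card (S.cent Z 1) = Nat.card Z ^ (r * r)

namespace FS

variable {p : ℕ} [Fact p.Prime] {V : Type} [AddCommGroup V] [Module (ZMod p) V]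
  {V' : Type} [AddCommGroup V'] [Module (ZMod p) V']

/-- `φ` is an isomorphism of rings with involution from `J` to `J'` that matches the isometry
groups. -/
structure Rl (S : FS p V) (J : S.NR) (S' : FS p V') (J' : S'.NR) (φ : S.E → S'.E) : Prop where
  mem : ∀ x ∈ J, φ x ∈ J'
  surj : ∀ y ∈ J', ∃ x ∈ J, φ x = y
  inj : ∀ x ∈ J, φ x = 0 → x = 0
  add : ∀ x ∈ J, ∀ y ∈ J, φ (x + y) = φ x + φ y
  mul : ∀ x ∈ J, ∀ y ∈ J, φ (x * y) = φ x * φ y
  star : ∀ x ∈ J, S.st x ∈ J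
  st : ∀ x ∈ J, φ (S.st x) = S'.st (φ x)
  q : ∀ x ∈ J, S.st (1 + x) * (1 + x) = 1 →
    ((∀ v, S.q ((1 + x) v) = S.q v) ↔ ∀ v, S'.q ((1 + φ x) v) = S'.q v)

/-- `J` with identity `e` is realised as a full endomorphism ring over a ring of scalars. -/
def Realised (S : FS p V) (J : S.NR) (e : S.E) : Prop :=
  ∃ (V' : Type) (_ : AddCommGroup V') (_ : Module (ZMod p) V') (_ : Finite V') (S' : FS p V')
    (Z' : S'.NR) (φ : S.E → S'.E), S'.Scal Z' 1 ∧ S'.TC (S'.cent Z' 1) 1 ∧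
      S'.ctr (S'.cent Z' 1) 1 = Z' ∧ Rl S J S' (S'.cent Z' 1) φ ∧ φ e = 1

end FS

/-- The realisation theorem. -/
def RL : Prop := AllFS fun _ _ _ _ _ S =>
  ∀ (J : S.NR) (e : S.E), S.Simp J e → S.TC J e → S.Realised J e

end Vale.Agent.P183NK
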