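import Mathlib.FieldTheory.Finite.Basic
import Mathlib.RingTheory.LittleWedderburn
import Mathlib.Tactic.NoncommRing
import Mathlib.Tactic.LinearCombination

/-!
Sesquilinear forms over a finite ring of scalars: semilinear isometries and the flip.
-/

set_option autoImplicit false
set_option linter.all false

namespace Vale.Agent.P183RL

open Finset

lemma field_sq {F : Type} [Field F] [Finite F] (τ : F →+* F) {a : F} (ha : a ≠ 0) :
    ∃ u, u * u * a = τ a := by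
  haveI := Fintype.ofFinite F
  have : IsSquare (τ a / a) := by
    by_cases h : ringChar F = 2
    · exact FiniteField.isSquare_of_char_two h _
    · rw [FiniteField.isSquare_iff h (div_ne_zero ((map_ne_zero τ).2 ha) ha), div_pow, ← map_pow]
      rcases FiniteField.pow_dichotomy h ha with e | e <;> simp [e]
  obtain ⟨u, hu⟩ := this
  exact ⟨u, by rw [← hu, div_mul_cancel₀ _ ha]⟩

variable {K : Type} [CommRing K]

/-- a ring of scalars with involution -/
structure Sc (σ : K →+* K) : Prop where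
  σσ : ∀ a, σ (σ a) = a
  nt : (1 : K) ≠ 0
  red : ∀ a : K, a * a = 0 → a = 0
  inv : ∀ a, σ a = a → a ≠ 0 → ∃ a', a * a' = 1

lemma Sc.exists_sq [Finite K] {σ : K →+* K} (h : Sc σ) (τ : K →+* K) (hτ : ∀ a, τ (σ a) = σ (τ a))
    {a : K} (hs : σ a = a) (h0 : a ≠ 0) : ∃ u, σ u * u * a = τ a := by
  let F := σ.eqLocus (RingHom.id K)
  haveI : Nontrivial F := ⟨1, 0, fun e => h.nt (congrArg Subtype.val e)⟩
  haveI : NoZeroDivisors F := ⟨fun {x y} e => by
    by_cases hx : x.1 = 0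
    · exact Or.inl (Subtype.ext hx)
    · obtain ⟨x', hx'⟩ := h.inv x.1 x.2 hx
      have e' : x.1 * y.1 = 0 := congrArg Subtype.val e
      exact Or.inr (Subtype.ext (by
        show y.1 = 0
        linear_combination x' * e' - y.1 * hx'))⟩
  haveI : IsDomain F := NoZeroDivisors.to_isDomain _
  letI : Field F := (Finite.isDomain_to_isField F).toField
  let τ' : F →+* F := (τ.comp F.subtype).codRestrict F fun x => by
    show σ (τ x.1) = τ x.1
    rw [← hτ, show σ x.1 = x.1 from x.2]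
  obtain ⟨u, hu⟩ := field_sq τ' (a := ⟨a, hs⟩) fun e => h0 (congrArg Subtype.val e)
  exact ⟨u.1, by rw [show σ u.1 = u.1 from u.2]; exact congrArg Subtype.val hu⟩

variable {M : Type} [AddCommGroup M] [Module K M]

/-- a semilinear isometry on `N` -/
def Res (τ : K →+* K) (b : M →+ M →ₗ[K] K) (N : Submodule K M) : Prop :=
  ∃ g : M →+ M, (∀ c x, g (c • x) = τ c • g x) ∧ (∀ x ∈ N, g x ∈ N) ∧
    ∀ x ∈ N, ∀ y ∈ N, b (g x) (g y) = τ (b x y)

lemma res_step {τ : K →+* K} {b : M →+ M →ₗ[K] K} {N : Submodule K M} (P : M →ₗ[K] M)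
    (hN : ∀ x, P x ∈ N) (hP : ∀ x ∈ N, ∀ y ∈ N, b (P x) y = b x (P y)) (hPP : ∀ x, P (P x) = P x)
    (hnd : ∀ x ∈ N, (∀ y ∈ N, b x y = 0) → x = 0) (h0 : ∃ x ∈ N, P x ≠ 0)
    (g₀ : M →+ M) (h1 : ∀ c x, g₀ (c • x) = τ c • g₀ x) (h2 : ∀ x, g₀ x ∈ N)
    (h3 : ∀ x, P (g₀ x) = g₀ x) (h4 : ∀ x y, b (g₀ x) (g₀ y) = τ (b (P x) (P y)))
    (ih : ∀ N' < N, (∀ x ∈ N', (∀ y ∈ N', b x y = 0) → x = 0) → Res τ b N') : Res τ b N := by
  have hm : ∀ x ∈ N, x - P x ∈ N ⊓ LinearMap.ker P := fun x hx =>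
    ⟨sub_mem hx (hN x), by rw [SetLike.mem_coe, LinearMap.mem_ker, map_sub, hPP, sub_self]⟩
  obtain ⟨g, g1, g2, g3⟩ := ih (N ⊓ LinearMap.ker P) (lt_of_le_of_ne inf_le_left fun e => by
    obtain ⟨x, hx, hx'⟩ := h0
    exact hx' (e.ge hx).2) fun x hx hx' => hnd x hx.1 fun y hy => by
      have := hx' _ (hm y hy)
      rwa [map_sub, ← hP x hx.1 y hy, show P x = 0 from hx.2, map_zero, LinearMap.zero_apply,
        sub_zero] at this
  refine ⟨g₀ + g.comp (AddMonoidHom.id M - P.toAddMonoidHom), fun c x => ?_,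
    fun x hx => add_mem (h2 x) (g2 _ (hm x hx)).1, fun x hx y hy => ?_⟩
  · show g₀ (c • x) + g (c • x - P (c • x)) = τ c • (g₀ x + g (x - P x))
    rw [P.map_smul, ← smul_sub, h1, g1, smul_add]
  · show b (g₀ x + g (x - P x)) (g₀ y + g (y - P y)) = _
    have e1 : b (g₀ x) (g (y - P y)) = 0 := by
      rw [← h3, hP _ (h2 x) _ (g2 _ (hm y hy)).1, show P (g (y - P y)) = 0 from (g2 _ (hm y hy)).2,
        map_zero]
    have e2 : b (g (x - P x)) (g₀ y) = 0 := by
      rw [← h3, ← hP _ (g2 _ (hm x hx)).1 _ (h2 y), show P (g (x - P x)) = 0 from (g2 _ (hm x hx)).2,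
        map_zero, LinearMap.zero_apply]
    have e3 : b (P x) (P y) = b x (P y) := by rw [hP x hx _ (hN y), hPP]
    rw [b.map_add, LinearMap.add_apply, map_add, map_add, e1, e2, h4, g3 _ (hm x hx) _ (hm y hy),
      add_zero, zero_add, ← map_add]
    congr 1
    simp only [map_sub, LinearMap.sub_apply, e3, hP x hx y hy]
    ring

/-- an additive map `x ↦ τ (f x) • v` -/
def sm (τ : K →+* K) (f : M →ₗ[K] K) (v : M) : M →+ M :=
  AddMonoidHom.mk' (fun x => τ (f x) • v) fun x y => by rw [map_add, map_add, add_smul]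

theorem exists_res [Finite K] [Finite M] {σ : K →+* K} (h : Sc σ) (τ : K →+* K)
    (hτ : ∀ a, τ (σ a) = σ (τ a)) (b : M →+ M →ₗ[K] K) (hb : ∀ c x y, b (c • x) y = σ c * b x y)
    (hε : (∀ x y, b y x = σ (b x y)) ∨ ((∀ a, σ a = a) ∧ ∀ x, b x x = 0)) (N : Submodule K M)
    (hnd : ∀ x ∈ N, (∀ y ∈ N, b x y = 0) → x = 0) : Res τ b N := by
  induction N using WellFoundedLT.induction with
  | ind N ih =>
  by_cases h1 : ∃ v ∈ N, b v v ≠ 0
  · obtain ⟨v, hv, h0⟩ := h1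
    have hh := hε.resolve_right fun e => h0 (e.2 v)
    obtain ⟨a', ha⟩ := h.inv _ (hh v v).symm h0
    obtain ⟨u, hu⟩ := h.exists_sq τ hτ (hh v v).symm h0
    have ha' : σ a' = a' := by
      have := congrArg σ ha
      rw [map_mul, ← hh, map_one] at this
      linear_combination a' * this - σ a' * ha
    have e1 : ∀ c : K, a' * b v (c • v) = c := fun c => by
      rw [map_smul, smul_eq_mul]
      linear_combination c * ha
    refine res_step ((a' • b v).smulRight v) (fun x => N.smul_mem _ hv) (fun x _ y _ => ?_)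
      (fun x => ?_) hnd ⟨v, hv, fun e => h0 ?_⟩ (sm τ (a' • b v) (u • v)) (fun c x => ?_)
      (fun x => N.smul_mem _ (N.smul_mem _ hv)) (fun x => ?_) (fun x y => ?_) ih
    · show b ((a' * b v x) • v) y = b x ((a' * b v y) • v)
      rw [hb, map_smul, smul_eq_mul, map_mul, ha', ← hh]
      ring
    · show (a' * b v ((a' * b v x) • v)) • v = (a' * b v x) • v
      rw [e1]
    · have e2 : (a' * b v v) • v = 0 := e
      rw [mul_comm, ha, one_smul] at e2
      rw [e2, map_zero]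
    · show τ (a' * b v (c • x)) • u • v = τ c • τ (a' * b v x) • u • v
      rw [map_smul, smul_eq_mul, mul_left_comm, map_mul, mul_smul]
    · show (a' * b v (τ (a' * b v x) • u • v)) • v = τ (a' * b v x) • u • v
      rw [smul_smul, e1]
    · show b (τ (a' * b v x) • u • v) (τ (a' * b v y) • u • v) =
        τ (b ((a' * b v x) • v) ((a' * b v y) • v))
      simp only [hb, map_smul, smul_eq_mul, map_mul, hτ, ← hu]
      ring
  push Not at h1
  by_cases h2 : N = ⊥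
  · refine ⟨0, by simp, by simp, fun x hx y _ => ?_⟩
    rw [h2, Submodule.mem_bot] at hx
    simp [hx]
  obtain ⟨u, hu, hu0⟩ := (Submodule.ne_bot_iff N).1 h2
  have hsk : ∀ x ∈ N, ∀ y ∈ N, b y x = -b x y := fun x hx y hy => by
    have := h1 _ (add_mem hx hy)
    simp only [map_add, LinearMap.add_apply, h1 x hx, h1 y hy] at this
    linear_combination this
  obtain ⟨w₀, hw₀, hc⟩ : ∃ w ∈ N, b u w ≠ 0 := by
    by_contra hc
    push Not at hc
    exact hu0 (hnd u hu hc)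
  have hz : ∀ w ∈ N, ∀ z, σ z * b u w = z * b u w := fun w hw z => by
    have := hsk u hu _ (N.smul_mem z hw)
    rw [hb, map_smul, smul_eq_mul, hsk u hu w hw] at this
    linear_combination -this
  have hcs : σ (b u w₀) = b u w₀ := by
    rcases hε with hh | hh
    · have e1 : σ (b u w₀) = -b u w₀ := by rw [← hh, hsk u hu w₀ hw₀]
      have e2 := hz w₀ hw₀ (b u w₀)
      have e3 : 2 * b u w₀ = 0 := h.red _ (by rw [e1] at e2; linear_combination -2 * e2)
      linear_combination e1 - e3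
    · exact hh.1 _
  obtain ⟨c', hc'⟩ := h.inv _ hcs hc
  have hw : c' • w₀ ∈ N := N.smul_mem _ hw₀
  have e1 : b u (c' • w₀) = 1 := by rw [map_smul, smul_eq_mul, mul_comm, hc']
  generalize c' • w₀ = w at hw e1
  have hσ : ∀ z, σ z = z := fun z => by simpa [e1] using hz w hw z
  have e2 : b w u = -1 := by rw [hsk u hu w hw, e1]
  have e3 : ∀ α γ : K, b u (γ • w - α • u) • w - b w (γ • w - α • u) • u = γ • w - α • u :=
    fun α γ => by simp [e1, e2, h1 u hu, h1 w hw]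
  refine res_step ((b u).smulRight w - (b w).smulRight u)
    (fun x => sub_mem (N.smul_mem _ hw) (N.smul_mem _ hu)) (fun x hx y hy => ?_)
    (fun x => e3 _ _) hnd ⟨u, hu, fun e => hu0 ?_⟩ (sm τ (b u) w - sm τ (b w) u) (fun c x => ?_)
    (fun x => sub_mem (N.smul_mem _ hw) (N.smul_mem _ hu)) (fun x => e3 _ _) (fun x y => ?_) ih
  · show b (b u x • w - b w x • u) y = b x (b u y • w - b w y • u)
    simp only [map_sub, LinearMap.sub_apply, hb, map_smul, smul_eq_mul, hσ, hsk u hu x hx,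
      hsk w hw x hx]
    ring
  · have e4 : b u u • w - b w u • u = 0 := e
    simpa [e2, h1 u hu] using e4
  · show τ (b u (c • x)) • w - τ (b w (c • x)) • u = τ c • (τ (b u x) • w - τ (b w x) • u)
    simp only [map_smul, smul_eq_mul, map_mul, mul_smul, smul_sub]
  · show b (τ (b u x) • w - τ (b w x) • u) (τ (b u y) • w - τ (b w y) • u) =
      τ (b (b u x • w - b w x • u) (b u y • w - b w y • u))
    simp [hb, hσ, e1, e2, h1 u hu, h1 w hw]

variable {E : Type} [Ring E]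

/-- a system of rank one elements -/
structure Br (σ : K →+* K) (ε : K) (b : M →+ M →ₗ[K] K) (ι : K →+* E) (st : E →+ E) {I : Type}
    [Fintype I] (v w : I → M) (r : M →+ M →+ E) : Prop where
  l : ∀ c x y, r (c • x) y = ι c * r x y
  r' : ∀ c x y, r x (c • y) = ι (σ c) * r x y
  mul : ∀ x y x' y', r x y * r x' y' = ι (b y x') * r x y'
  star : ∀ x y, st (r x y) = ι ε * r y x
  one : ∑ i, r (v i) (w i) = 1
  cen : ∀ c x y, ι c * r x y = r x y * ι c

section flip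

variable {σ : K →+* K} {ε : K} {b : M →+ M →ₗ[K] K} {ι : K →+* E} {st : E →+ E} {I : Type}
  [Fintype I] {v w : I → M} {r₁ r₂ : M →+ M →+ E} (h₁ : Br σ ε b ι st v w r₁)
  (h₂ : Br σ ε b ι st v w r₂) (hc : ∀ x y x' y', r₁ x y * r₂ x' y' = r₂ x' y' * r₁ x y)
  (hσ : ∀ a, σ (σ a) = a) (hε : ∀ x y, b y x = ε * σ (b x y)) (hε' : ε * ε = 1)
  (hf : ∀ x, ∑ i, b (w i) x • v i = x) (hf' : ∀ y, ∑ i, σ (b y (v i)) • w i = y)

/-- the flip -/
def flipT (v w : I → M) (r₁ r₂ : M →+ M →+ E) : E := ∑ j, ∑ i, r₁ (v i) (w j) * r₂ (v j) (w i)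

include hc in
lemma flipT_comm : flipT v w r₁ r₂ = flipT v w r₂ r₁ := by
  rw [flipT, flipT, sum_comm]
  simp only [hc]

include h₁ h₂ hc hf in
lemma flipT_mul (x y : M) : flipT v w r₁ r₂ * r₁ x y = ∑ i, r₁ (v i) y * r₂ x (w i) := by
  rw [flipT, sum_comm, sum_mul]
  refine sum_congr rfl fun i _ => ?_
  conv_rhs => rw [← hf x, map_sum, AddMonoidHom.finset_sum_apply, mul_sum]
  rw [sum_mul]
  refine sum_congr rfl fun j _ => ?_
  rw [mul_assoc, ← hc, ← mul_assoc, h₁.mul, h₂.l, h₁.cen, mul_assoc]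

include h₁ h₂ hc hσ hf' in
lemma mul_flipT (x y : M) : r₂ x y * flipT v w r₁ r₂ = ∑ i, r₁ (v i) y * r₂ x (w i) := by
  rw [flipT, sum_comm, mul_sum]
  refine sum_congr rfl fun i _ => ?_
  conv_rhs => rw [← hf' y, map_sum, sum_mul]
  rw [mul_sum]
  refine sum_congr rfl fun j _ => ?_
  rw [← mul_assoc, ← hc, mul_assoc, h₂.mul, h₁.r', hσ, h₁.cen, mul_assoc]

include h₁ h₂ hc hσ hf hf' in
theorem flipT_conj (x y : M) : flipT v w r₁ r₂ * r₁ x y = r₂ x y * flipT v w r₁ r₂ := by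
  rw [flipT_mul h₁ h₂ hc hf, mul_flipT h₁ h₂ hc hσ hf']

include h₁ h₂ hc hf in
theorem flipT_sq : flipT v w r₁ r₂ * flipT v w r₁ r₂ = 1 := by
  conv_lhs => enter [2]; rw [flipT, sum_comm]
  have : ∀ k l, flipT v w r₁ r₂ * (r₁ (v k) (w l) * r₂ (v l) (w k)) =
      r₁ (v l) (w l) * r₂ (v k) (w k) := fun k l => by
    rw [← mul_assoc, flipT_mul h₁ h₂ hc hf, sum_mul]
    conv_rhs => rw [← hf (v l), map_sum, AddMonoidHom.finset_sum_apply, sum_mul]
    refine sum_congr rfl fun i _ => ?_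
    rw [mul_assoc, h₂.mul, h₁.l, h₁.cen, mul_assoc]
  simp only [mul_sum, this, ← sum_mul, h₁.one, one_mul, h₂.one]

include hσ hε hε' hf in
lemma frame_swap (F : M →+ M →+ E) (hF : ∀ c x y, F (c • x) y = F x (σ c • y)) :
    ∑ j, F (w j) (v j) = ∑ k, F (v k) (ε • w k) := by
  have hσε : ∀ x y, σ (b x y) = ε * b y x := fun x y => by rw [hε x y, ← mul_assoc, hε', one_mul]
  calc ∑ j, F (w j) (v j) = ∑ j, ∑ k, F (v k) ((ε * b (w j) (w k)) • v j) := by
        refine sum_congr rfl fun j _ => ?_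
        conv_lhs => rw [← hf (w j), map_sum, AddMonoidHom.finset_sum_apply]
        simp only [hF, hσε]
    _ = _ := by
        rw [sum_comm]
        refine sum_congr rfl fun k _ => ?_
        simp only [mul_smul, ← map_sum, ← smul_sum, hf]

include h₁ h₂ hc hσ hε hε' hf in
theorem flipT_star (hs : ∀ x y, st (x * y) = st y * st x) (hσε : σ ε = ε) :
    st (flipT v w r₁ r₂) = flipT v w r₁ r₂ := by
  have e0 : ι ε * ι ε = 1 := by rw [← map_mul, hε', map_one]
  have e1 : st (flipT v w r₁ r₂) = ∑ i, ∑ j, r₁ (w j) (v i) * r₂ (w i) (v j) := by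
    rw [flipT, sum_comm]
    simp only [map_sum, hs, h₁.star, h₂.star]
    refine sum_congr rfl fun i _ => sum_congr rfl fun j _ => ?_
    rw [mul_assoc, ← mul_assoc (r₂ _ _), ← h₂.cen, ← mul_assoc, ← mul_assoc, e0, one_mul, hc]
  have e2 : ∀ i, ∑ j, r₁ (w j) (v i) * r₂ (w i) (v j) =
      ∑ k, r₁ (v k) (v i) * r₂ (w i) (ε • w k) := fun i =>
    frame_swap hσ hε hε' hf
      (((AddMonoidHom.mul (R := E)).comp (r₁.flip (v i))).compl₂ (r₂ (w i))) fun c x y => by
      show r₁ (c • x) (v i) * r₂ (w i) y = r₁ x (v i) * r₂ (w i) (σ c • y)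
      rw [h₁.l, h₂.r', hσ, h₁.cen, mul_assoc]
  have e3 : ∀ k, ∑ i, r₁ (v k) (v i) * r₂ (w i) (ε • w k) =
      ∑ l, r₁ (v k) (ε • w l) * r₂ (v l) (ε • w k) := fun k =>
    frame_swap hσ hε hε' hf
      (((AddMonoidHom.mul (R := E)).flip.comp (r₂.flip (ε • w k))).compl₂ (r₁ (v k))) fun c x y => by
      show r₁ (v k) y * r₂ (c • x) (ε • w k) = r₁ (v k) (σ c • y) * r₂ x (ε • w k)
      rw [h₂.l, h₁.r', hσ, h₁.cen, mul_assoc]
  simp only [e1, e2]
  rw [sum_comm, flipT, sum_comm (f := fun j i => r₁ (v i) (w j) * r₂ (v j) (w i))]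
  refine sum_congr rfl fun k _ => (e3 k).trans (sum_congr rfl fun l _ => ?_)
  rw [h₁.r', h₂.r', hσε, h₁.cen, mul_assoc, ← mul_assoc (ι ε), e0, one_mul]

end flip

/-- the two types of forms -/
def Ty (σ : K →+* K) (ε : K) (b : M →+ M →ₗ[K] K) : Prop :=
  (ε = 1 ∧ ∀ x y, b y x = σ (b x y)) ∨ (ε = -1 ∧ (∀ a, σ a = a) ∧ ∀ x, b x x = 0)

lemma Ty.herm {σ : K →+* K} {ε : K} {b : M →+ M →ₗ[K] K} (h : Ty σ ε b) (x y : M) :
    b y x = ε * σ (b x y) := by
  rcases h with ⟨rfl, h⟩ | ⟨rfl, h1, h2⟩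
  · rw [one_mul, h]
  · have := h2 (x + y)
    simp only [map_add, LinearMap.add_apply, h2 x, h2 y] at this
    rw [h1]
    linear_combination this

lemma Ty.sq {σ : K →+* K} {ε : K} {b : M →+ M →ₗ[K] K} (h : Ty σ ε b) : ε * ε = 1 := by
  rcases h with ⟨rfl, -⟩ | ⟨rfl, -⟩ <;> simp

lemma Ty.map {σ : K →+* K} {ε : K} {b : M →+ M →ₗ[K] K} (h : Ty σ ε b) (τ : K →+* K) : τ ε = ε := by
  rcases h with ⟨rfl, -⟩ | ⟨rfl, -⟩ <;> simp

theorem flip_main [Finite K] [Finite M] {σ : K →+* K} (h : Sc σ) {ε : K} {b : M →+ M →ₗ[K] K}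
    (hb : ∀ c x y, b (c • x) y = σ c * b x y) (hε : Ty σ ε b)
    (hnd : ∀ x, (∀ y, b x y = 0) → x = 0) {ι : K →+* E} {st : E →+ E}
    (hs : ∀ x y, st (x * y) = st y * st x) {I : Type} [Fintype I] {v w : I → M} {r : M →+ M →+ E}
    (hr : Br σ ε b ι st v w r) (hf : ∀ x, ∑ i, b (w i) x • v i = x) (τ : K →+* K)
    (hτ : ∀ a, τ (σ a) = σ (τ a)) (hτi : Function.Injective τ) (c : E →+* E)
    (hc : ∀ a, c (ι (τ a)) = ι a) (hcs : ∀ x y, st (c (r x y)) = c (st (r x y)))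
    (hcc : ∀ x y x' y', r x y * c (r x' y') = c (r x' y') * r x y) :
    ∃ t : E, (∀ A : AddSubgroup E, (∀ x y x' y', r x y * c (r x' y') ∈ A) → t ∈ A) ∧ t * t = 1 ∧
      st t = t ∧ (∀ x y, ∃ x' y', t * r x y * t = c (r x' y')) ∧
      ∀ x y, ∃ x' y', t * c (r x y) * t = r x' y' := by
  obtain ⟨g, g1, -, g2⟩ := exists_res h τ hτ b hb (hε.imp And.right And.right) ⊤
    fun x _ hx => hnd x fun y => hx y trivial
  have g3 : ∀ x y, b (g x) (g y) = τ (b x y) := fun x y => g2 x trivial y trivial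
  have g4 : Function.Surjective g := Finite.surjective_of_injective
    ((injective_iff_map_eq_zero g).2 fun x hx => hnd x fun y => hτi (by
      rw [← g3, hx, map_zero, map_zero, LinearMap.zero_apply]))
  have hf' : ∀ y, ∑ i, σ (b y (v i)) • w i = y := fun y => sub_eq_zero.1 (hnd _ fun x => by
    rw [map_sub, LinearMap.sub_apply, map_sum, LinearMap.sum_apply, sub_eq_zero]
    conv_rhs => rw [← hf x, map_sum]
    simp only [hb, h.σσ, map_smul, smul_eq_mul, mul_comm])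
  let r₂ : M →+ M →+ E := ((r.comp g).compl₂ g).compr₂ c.toAddMonoidHom
  have e2 : ∀ x y, r₂ x y = c (r (g x) (g y)) := fun _ _ => rfl
  have h₂ : Br σ ε b ι st v w r₂ := by
    refine ⟨fun a x y => ?_, fun a x y => ?_, fun x y x' y' => ?_, fun x y => ?_, ?_, fun a x y => ?_⟩
    · rw [e2, e2, g1, hr.l, map_mul, hc]
    · rw [e2, e2, g1, hr.r', map_mul, ← hτ, hc]
    · rw [e2, e2, e2, ← map_mul, hr.mul, g3, map_mul, hc]
    · rw [e2, e2, hcs, hr.star, map_mul, ← hε.map τ, hc, hε.map τ]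
    · have e3 : ∀ x y, (∑ i, r (g (v i)) (g (w i))) * r x y = r x y := fun x y => by
        obtain ⟨x, rfl⟩ := g4 x
        conv_rhs => rw [← hf x, map_sum, map_sum, AddMonoidHom.finset_sum_apply]
        simp only [sum_mul, hr.mul, g1, g3, hr.l]
      simp only [e2, ← map_sum]
      rw [← mul_one (∑ i, _), ← hr.one, mul_sum]
      simp only [e3, hr.one, map_one]
    · rw [e2, ← hc, ← map_mul, hr.cen, map_mul]
  have hcc' : ∀ x y x' y', r x y * r₂ x' y' = r₂ x' y' * r x y := fun x y x' y' => hcc _ _ _ _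
  have e4 := flipT_sq hr h₂ hcc' hf
  refine ⟨flipT v w r r₂, fun A hA => sum_mem fun j _ => sum_mem fun i _ => hA _ _ _ _, e4,
    flipT_star hr h₂ hcc' h.σσ hε.herm hε.sq hf hs (hε.map σ), fun x y => ⟨g x, g y, ?_⟩,
    fun x y => ?_⟩
  · rw [flipT_conj hr h₂ hcc' h.σσ hf hf', mul_assoc, e4, mul_one, e2]
  · obtain ⟨x, rfl⟩ := g4 x
    obtain ⟨y, rfl⟩ := g4 y
    exact ⟨x, y, by rw [← e2, mul_assoc, ← flipT_conj hr h₂ hcc' h.σσ hf hf', ← mul_assoc, e4, one_mul]⟩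

/-- a nonzero compatible form can be symmetrised -/
theorem exists_ty {σ : K →+* K} (h : Sc σ) (P : (M →+ M →ₗ[K] K) → Prop)
    (hP : ∀ b b' : M →+ M →ₗ[K] K, P b → ∀ θ : K, (∀ x y, b' x y = θ * (b x y - σ (b y x))) → P b')
    (b : M →+ M →ₗ[K] K) (hb : ∀ c x y, b (c • x) y = σ c * b x y) (h0 : b ≠ 0) (h1 : P b) :
    ∃ (ε : K) (b : M →+ M →ₗ[K] K), (∀ c x y, b (c • x) y = σ c * b x y) ∧ b ≠ 0 ∧ P b ∧
      Ty σ ε b := by
  by_cases hh : ∀ x y, b y x = σ (b x y)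
  · exact ⟨1, b, hb, h0, h1, Or.inl ⟨rfl, hh⟩⟩
  push Not at hh
  obtain ⟨y₀, x₀, hxy⟩ := hh
  let B : K → M →+ M →ₗ[K] K := fun θ => AddMonoidHom.mk' (fun x =>
    { toFun := fun y => θ * (b x y - σ (b y x))
      map_add' := fun y z => by simp only [map_add, LinearMap.add_apply]; ring
      map_smul' := fun c y => by
        simp only [map_smul, hb, map_mul, h.σσ, smul_eq_mul, RingHom.id_apply]; ring })
    fun x y => LinearMap.ext fun z => by
      simp only [map_add, LinearMap.add_apply, LinearMap.coe_mk, AddHom.coe_mk]; ring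
  have eB : ∀ θ x y, B θ x y = θ * (b x y - σ (b y x)) := fun _ _ _ => rfl
  have hB : ∀ θ c x y, B θ (c • x) y = σ c * B θ x y := fun θ c x y => by
    simp only [eB, hb, map_smul, smul_eq_mul, map_mul]; ring
  have hB0 : ∀ θ θ', θ * θ' = 1 → B θ ≠ 0 := fun θ θ' e e0 => hxy (by
    have : θ * (b x₀ y₀ - σ (b y₀ x₀)) = 0 := congrArg (fun f : M →+ M →ₗ[K] K => f x₀ y₀) e0
    linear_combination θ' * this - (b x₀ y₀ - σ (b y₀ x₀)) * e)
  by_cases hσ : ∀ a, σ a = a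
  · exact ⟨-1, B 1, hB 1, hB0 1 1 (mul_one _), hP b _ h1 1 (eB 1),
      Or.inr ⟨rfl, hσ, fun x => by rw [eB, hσ, sub_self, mul_zero]⟩⟩
  · push Not at hσ
    obtain ⟨z, hz⟩ := hσ
    have e1 : σ (z - σ z) = -(z - σ z) := by rw [map_sub, h.σσ, neg_sub]
    obtain ⟨a, ha⟩ := h.inv ((z - σ z) * (z - σ z)) (by rw [map_mul, e1, neg_mul_neg])
      fun e0 => hz (sub_eq_zero.1 (h.red _ e0)).symm
    refine ⟨1, B (z - σ z), hB _, hB0 _ ((z - σ z) * a) (by rw [← mul_assoc, ha]),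
      hP b _ h1 _ (eB _), Or.inl ⟨rfl, fun x y => ?_⟩⟩
    rw [eB, eB, map_mul, e1, map_sub, h.σσ]
    ring

end Vale.Agent.P183RL
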