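import Vale.Agent.P183RL.Main
import Vale.Agent.P183RL.FlipA

/-!
The flip of two commuting conjugate central simple factors.
-/

set_option autoImplicit false
set_option linter.all false

namespace Vale.Agent.P183NK

open Vale.Agent.P183A Vale.Agent.P183RL Finset

namespace FS

variable {p : ℕ} [Fact p.Prime] {V : Type} [AddCommGroup V] [Module (ZMod p) V] {S : FS p V}

/-- the scalars as a commutative ring -/
def KZ {Z : S.NR} (_h : S.Scal Z 1) : Type := Z

namespace KZ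

variable {Z : S.NR} (h : S.Scal Z 1)

instance : Ring (KZ h) := inferInstanceAs (Ring (LR h.toLoc))

/-- the constructor -/
def mk (z : S.E) (hz : z ∈ Z) : KZ h := ⟨z, hz⟩

instance : CommRing (KZ h) :=
  { (inferInstance : Ring (KZ h)) with
    mul_comm := fun a b => Subtype.ext (h.comm _ a.2 _ b.2) }

instance [Finite V] : Finite (KZ h) := inferInstanceAs (Finite Z)

/-- the inclusion -/
def ι : KZ h →+* S.E where
  toFun := fun a => a.1
  map_one' := rfl
  map_mul' := fun _ _ => rfl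
  map_zero' := rfl
  map_add' := fun _ _ => rfl

/-- the involution -/
def σ : KZ h →+* KZ h where
  toFun := fun a => ⟨S.st a.1, h.star _ a.2⟩
  map_one' := Subtype.ext S.st_one
  map_mul' := fun a b => Subtype.ext ((S.st_mul a.1 b.1).trans (h.comm _ (h.star _ b.2) _ (h.star _ a.2)))
  map_zero' := Subtype.ext S.st_zero
  map_add' := fun a b => Subtype.ext (S.st_add a.1 b.1)

lemma sc : Sc (σ h) where
  σσ := fun a => Subtype.ext (S.st_st a.1)
  nt := fun e => h.ne (congrArg Subtype.val e)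
  red := fun a e => Subtype.ext (h.red a.1 a.2 (congrArg Subtype.val e))
  inv := fun a e1 e2 => by
    obtain ⟨y, hy, e3⟩ := h.inv a.1 a.2 (congrArg Subtype.val e1) fun e => e2 (Subtype.ext e)
    exact ⟨⟨y, hy⟩, Subtype.ext e3⟩

end KZ

namespace MF

variable {J : S.NR} {e : S.E} {M : Submodule (ZMod p) V} {s : M →ₗ[ZMod p] S.E}

lemma nondeg' (hJ : S.Simp J e) (h : S.MF J e M s) {A : Type} [AddCommGroup A] {B : M →+ M →+ A}
    (hB : ∀ x ∈ J, ∀ u w, B (rres M x u) w = B u (rres M (S.st x) w))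
    (hr : ∀ u w, B u w = 0 → B w u = 0) (h0 : B ≠ 0) (u : M) (hu : ∀ w, B u w = 0) : u = 0 := by
  rcases h.subm ((AddSubgroup.toZModSubmodule p B.ker).map M.subtype) (M.map_subtype_le _) (by
    rintro x hx _ ⟨v, hv, rfl⟩
    refine ⟨rres M x v, AddMonoidHom.ext fun w => ?_, h.toSub.app hx v⟩
    rw [hB x hx, show B v = 0 from hv]; rfl) with e1 | e1 | ⟨η, t, e1⟩
  · exact Subtype.ext (e1.le ⟨u, AddMonoidHom.ext hu, rfl⟩)
  · refine absurd (AddMonoidHom.ext fun v => ?_) h0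
    obtain ⟨w, hw, e2⟩ := e1.ge v.2
    rwa [← show w = v from Subtype.ext e2]
  · have e2 : ∀ v w, B (rres M η v) w = 0 := fun v w => by
      obtain ⟨y, hy, e3⟩ := e1 v v.2
      rw [← show y = rres M η v from Subtype.ext (e3.trans (h.toSub.app t.mem.1 v).symm),
        show B y = 0 from hy]
      rfl
    have t' := hJ.star η t.mem.1
    refine absurd (AddMonoidHom.ext fun v => AddMonoidHom.ext fun w => ?_) h0
    have e3 : v = rres M η v + rres M (S.st η) v := by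
      rw [← LinearMap.add_apply, ← h.toSub.add t.mem.1 t', t.add, h.toSub.one hJ.mem]; rfl
    rw [e3, map_add, AddMonoidHom.add_apply, e2, hB _ t', st_st, hr _ _ (e2 w v), add_zero]
    rfl

lemma ext' (h : S.MF J e M s) {x y : S.E} (hx : x ∈ J) (hy : y ∈ J)
    (e1 : ∀ u, rres M x u = rres M y u) : x = y :=
  sub_eq_zero.1 (h.faith _ (sub_mem hx hy) fun u hu => by
    rw [LinearMap.sub_apply, ← h.toSub.app hx ⟨u, hu⟩, e1, h.toSub.app hy, sub_self])

variable {Z : S.NR} {J : S.NR} {M : Submodule (ZMod p) V} {s : M →ₗ[ZMod p] S.E}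
  (hZ : S.Scal Z 1) (hJ : S.Simp J 1) (hc : S.ctr J 1 = Z) (h : S.MF J 1 M s)
  [Module (KZ hZ) M] (hsm : ∀ (c : KZ hZ) (u : M), c • u = rres M c.1 u)
include hJ hc h hsm

omit h hsm hJ in
lemma kz_mem (c : KZ hZ) : c.1 ∈ S.ctr J 1 := hc.ge c.2

lemma kz_ext {a b : KZ hZ} (e1 : ∀ u : M, a • u = b • u) : a = b :=
  Subtype.ext (h.ext' (kz_mem hZ hc a).1 (kz_mem hZ hc b).1 fun u => by rw [← hsm, ← hsm, e1])

lemma kz_comm (c : KZ hZ) {x : S.E} (hx : x ∈ J) (u : M) : rres M x (c • u) = c • rres M x u := by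
  have hc' := kz_mem hZ hc c
  rw [hsm, hsm, ← Module.End.mul_apply, ← Module.End.mul_apply, ← h.toSub.mul hx hc'.1,
    ← h.toSub.mul hc'.1 hx, hc'.2.2.2 x hx]

lemma kz_mul (c : KZ hZ) {x : S.E} (hx : x ∈ J) (u : M) : rres M (c.1 * x) u = c • rres M x u := by
  rw [hsm, h.toSub.mul (kz_mem hZ hc c).1 hx]; rfl

lemma exists_kappa : ∃ κ : M →ₗ[KZ hZ] KZ hZ, ∀ v t : M, κ v • t = rres M (s t) v := by
  have : ∀ v : M, ∃ z : KZ hZ, ∀ t : M, z • t = rres M (s t) v := fun v => by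
    obtain ⟨z, hz, e1⟩ := h.com ((LinearMap.applyₗ v.1 ∘ₗ s).codRestrict M fun t =>
      h.inv _ (h.s_mem t) _ v.2) fun x hx => LinearMap.ext fun t => Subtype.ext (by
        rw [Module.End.mul_apply, Module.End.mul_apply, h.toSub.app hx]
        show s (rres M x t) v = x (s t v)
        rw [h.s_mul x hx]; rfl)
    exact ⟨KZ.mk hZ z (hc.le hz), fun t => (hsm _ t).trans (Subtype.ext (by
      show (rres M z t).1 = _
      rw [h.toSub.app (h.s_mem t), e1]; rfl))⟩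
  choose κ hκ using this
  exact ⟨⟨⟨κ, fun v w => h.kz_ext hZ hJ hc hsm fun t => by rw [add_smul, hκ, hκ, hκ, map_add]⟩,
    fun c v => h.kz_ext hZ hJ hc hsm fun t => by
      show κ (c • v) • t = (c • κ v) • t
      rw [ smul_eq_mul, mul_smul, hκ, hκ, h.kz_comm hZ hJ hc hsm c (h.s_mem t)]⟩, hκ⟩

theorem exists_zform : ∃ (ε : KZ hZ) (b : M →+ M →ₗ[KZ hZ] KZ hZ),
    (∀ c x y, b (c • x) y = KZ.σ hZ c * b x y) ∧ b ≠ 0 ∧
    (∀ j ∈ J, ∀ x y, b (rres M j x) y = b x (rres M (S.st j) y)) ∧ Ty (KZ.σ hZ) ε b := by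
  obtain ⟨κ, hκ⟩ := h.exists_kappa hZ hJ hc hsm
  have hm : ∀ {y : S.E}, y ∈ J → ∀ w, y * S.st (s w) ∈ J := fun hy w =>
    mul_mem hy (hJ.star _ (h.s_mem w))
  obtain ⟨y, hy, w₀, u₀, h0⟩ : ∃ y ∈ J, ∃ w u, κ (rres M (y * S.st (s w)) u) ≠ 0 := by
    by_contra hn
    push Not at hn
    obtain ⟨w, hw⟩ := h.s_ne hJ
    have := h.full (S.idl J (fun j => ∀ y ∈ J, j * (y * S.st (s w)) = 0) (fun _ _ => zero_mul _)
      (fun a b ha hb y hy => by rw [add_mul, ha y hy, hb y hy, add_zero])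
      (fun a ha y hy => by rw [neg_mul, ha y hy, neg_zero])
      (fun a _ ha x _ y hy => by rw [mul_assoc, ha y hy, mul_zero]))
      (idl_idl fun a _ ha x hx y hy => by rw [mul_assoc, ← mul_assoc x, ha _ (mul_mem hx hy)])
      fun t => ⟨h.s_mem t, fun y hy => h.ext' (mul_mem (h.s_mem t) (hm hy w)) (zero_mem _) fun u => by
        rw [h.toSub.mul (h.s_mem t) (hm hy w), Module.End.mul_apply, ← hκ, hn y hy, zero_smul,
          h.toSub.zero]
        rfl⟩
    exact hw (by simpa using (this.ge hJ.mem).2 1 hJ.mem)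
  let b₀ : M → M →ₗ[KZ hZ] KZ hZ := fun w =>
    { toFun := fun u => κ (rres M (y * S.st (s w)) u)
      map_add' := fun u v => by rw [map_add, map_add]
      map_smul' := fun c u => by rw [h.kz_comm hZ hJ hc hsm c (hm hy w), map_smul]; rfl }
  let b : M →+ M →ₗ[KZ hZ] KZ hZ := AddMonoidHom.mk' b₀
    fun w w' => LinearMap.ext fun u => by
      show κ (rres M (y * S.st (s (w + w'))) u) = κ _ + κ _
      rw [map_add, st_add, mul_add, h.toSub.add (hm hy w) (hm hy w'), LinearMap.add_apply, map_add]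
  have hP : ∀ j ∈ J, ∀ x y, b (rres M j x) y = b x (rres M (S.st j) y) := fun j hj w u => by
    show κ (rres M (y * S.st (s (rres M j w))) u) = κ (rres M (y * S.st (s w)) _)
    rw [h.s_mul j hj, st_mul, ← mul_assoc, h.toSub.mul (hm hy w) (hJ.star j hj)]
    rfl
  refine exists_ty (KZ.sc hZ) (fun b => ∀ j ∈ J, ∀ x y, b (rres M j x) y = b x (rres M (S.st j) y))
    (fun b b' hb θ hb' j hj x y => ?_) b (fun c x y => ?_)
    (fun e0 => h0 (congrArg (fun f : M →+ M →ₗ[KZ hZ] KZ hZ => f w₀ u₀) e0)) hP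
  · rw [hb', hb', hb j hj, hb _ (hJ.star j hj), st_st]
  · rw [hsm, hP _ (kz_mem hZ hc c).1, ← smul_eq_mul, ← map_smul, hsm]
    rfl

theorem exists_br [Fintype M] {ε : KZ hZ} {b : M →+ M →ₗ[KZ hZ] KZ hZ}
    (hb : ∀ c x y, b (c • x) y = KZ.σ hZ c * b x y) (h0 : b ≠ 0)
    (hP : ∀ j ∈ J, ∀ x y, b (rres M j x) y = b x (rres M (S.st j) y)) (hε : Ty (KZ.σ hZ) ε b)
    (hnd : ∀ x, (∀ y, b x y = 0) → x = 0) :
    ∃ (r : M →+ M →+ S.E) (f : M → M), Br (KZ.σ hZ) ε b (KZ.ι hZ) S.stA id f r ∧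
      (∀ x, ∑ u, b (f u) x • id u = x) ∧ (∀ x y, r x y ∈ J) ∧
      ∀ j ∈ J, ∃ f : M → M, j = ∑ u, r u (f u) := by
  have : ∀ u w : M, ∃ j ∈ J, ∀ x, rres M j x = b w x • u := fun u w => by
    obtain ⟨j, hj, e1⟩ := h.dens (((b w).smulRight u).toAddMonoidHom.toZModLinearMap p)
      fun z hz => LinearMap.ext fun x => by
        show b w (rres M (KZ.mk hZ z (hc.le hz)).1 x) • u = rres M (KZ.mk hZ z (hc.le hz)).1 (b w x • u)
        rw [← hsm, ← hsm, map_smul, smul_eq_mul, mul_smul]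
    exact ⟨j, hj, fun x => by rw [e1]; rfl⟩
  choose r₀ hm hr using this
  let r : M →+ M →+ S.E := AddMonoidHom.mk' (fun u => AddMonoidHom.mk' (r₀ u) fun w w' =>
      h.ext' (hm _ _) (add_mem (hm _ _) (hm _ _)) fun x => by
        rw [h.toSub.add (hm _ _) (hm _ _), LinearMap.add_apply, hr, hr, hr, b.map_add,
          LinearMap.add_apply, add_smul])
    fun u u' => AddMonoidHom.ext fun w => h.ext' (hm _ _) (add_mem (hm _ _) (hm _ _)) fun x => by
      show rres M (r₀ (u + u') w) x = rres M (r₀ u w + r₀ u' w) x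
      rw [h.toSub.add (hm _ _) (hm _ _), LinearMap.add_apply, hr, hr, hr, smul_add]
  have er : ∀ u w, r u w = r₀ u w := fun _ _ => rfl
  have hm' : ∀ u w, r u w ∈ J := hm
  have hr' : ∀ u w x, rres M (r u w) x = b w x • u := hr
  have hk := fun c => (kz_mem hZ hc c).1
  have l1 : ∀ j ∈ J, ∀ u w, j * r u w = r (rres M j u) w := fun j hj u w =>
    h.ext' (mul_mem hj (hm _ _)) (hm _ _) fun x => by
      rw [er, er, h.toSub.mul hj (hm _ _), Module.End.mul_apply, hr, hr, h.kz_comm hZ hJ hc hsm _ hj]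
  have l2 : ∀ j ∈ J, ∀ u w, r u w * j = r u (rres M (S.st j) w) := fun j hj u w =>
    h.ext' (mul_mem (hm _ _) hj) (hm _ _) fun x => by
      rw [er, er, h.toSub.mul (hm _ _) hj, Module.End.mul_apply, hr, hr, hP _ (hJ.star j hj), st_st]
  have l3 : ∀ u w, S.st (r u w) = ε.1 * r w u := fun u w =>
    h.ext' (hJ.star _ (hm _ _)) (mul_mem (hk _) (hm _ _)) fun x => sub_eq_zero.1 (hnd _ fun y => by
      have e1 : ∀ x y, b x y = 0 → b y x = 0 := fun x y e => by rw [hε.herm, e, map_zero, mul_zero]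
      apply e1
      rw [map_sub, er, er, ← hP _ (hm _ _), h.kz_mul hZ hJ hc hsm _ (hm _ _), hr, hr, hb, map_smul,
        map_smul, smul_eq_mul, smul_eq_mul, hε.herm w y]
      linear_combination -(KZ.σ hZ ((b w) y) * (b u) x) * hε.sq)
  let A : AddSubgroup S.E :=
    { carrier := {j | ∃ f : M → M, j = ∑ u, r u (f u)}
      zero_mem' := ⟨0, by simp⟩
      add_mem' := by
        rintro _ _ ⟨f, rfl⟩ ⟨g, rfl⟩
        exact ⟨f + g, by simp [sum_add_distrib]⟩
      neg_mem' := by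
        rintro _ ⟨f, rfl⟩
        exact ⟨-f, by simp⟩ }
  have hA : ∀ u w, r u w ∈ A := fun u w => by
    classical
    refine ⟨Pi.single u w, ?_⟩
    rw [sum_eq_single u (fun v _ hv => by simp [hv]) (by simp), Pi.single_eq_same]
  have hsp : ∀ j ∈ J, j ∈ A := by
    rcases hJ.idl_cases (R := S.idl J (· ∈ A) (zero_mem _) (fun _ _ => add_mem) (fun _ => neg_mem)
      (by
        rintro _ - ⟨f, rfl⟩ y hy
        rw [mul_sum]
        exact sum_mem fun u _ => l1 y hy u _ ▸ hA _ _))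
      (idl_idl (by
        rintro _ - ⟨f, rfl⟩ y hy
        rw [sum_mul]
        exact sum_mem fun u _ => l2 y hy u _ ▸ hA _ _))
      (by
        rintro _ ⟨hx, f, rfl⟩
        refine ⟨hJ.star _ hx, ?_⟩
        rw [st_sum]
        exact sum_mem fun u _ => by rw [l3, l1 _ (hk _)]; exact hA _ _) with e1 | e1
    · refine absurd (AddMonoidHom.ext fun w => LinearMap.ext fun x =>
        h.kz_ext hZ hJ hc hsm fun u => ?_) h0
      rw [← hr, NonUnitalSubring.mem_bot.1 (e1.le ⟨hm u w, hA u w⟩), h.toSub.zero]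
      simp
    · exact fun j hj => (e1.ge hj).2
  obtain ⟨f, hf⟩ := hsp 1 hJ.mem
  refine ⟨r, f, ⟨fun c x y => ?_, fun c x y => ?_, fun x y x' y' => ?_, l3, hf.symm,
    fun c x y => (kz_mem hZ hc c).2.2.2 _ (hm _ _)⟩, fun x => ?_, hm, hsp⟩
  · rw [hsm, ← l1 _ (hk c)]; rfl
  · have := l2 _ (hk (KZ.σ hZ c)) x y
    rw [show S.st (KZ.σ hZ c).1 = c.1 from S.st_st _, ← hsm] at this
    rw [← this]
    exact ((kz_mem hZ hc _).2.2.2 _ (hm _ _)).symm
  · rw [l1 _ (hm' _ _), hr', hsm, ← l1 _ (hk _)]; rfl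
  · have e1 : ∀ T : Finset M, rres M (∑ u ∈ T, r u (f u)) x = ∑ u ∈ T, b (f u) x • u := fun T => by
      classical
      induction T using Finset.induction_on with
      | empty => simp [h.toSub.zero]
      | insert a T ha ih =>
        rw [sum_insert ha, sum_insert ha, h.toSub.add (hm' _ _) (sum_mem fun u _ => hm' _ _),
          LinearMap.add_apply, ih, hr']
    have := e1 univ
    rw [← hf, h.toSub.one hJ.mem] at this
    exact this.symm

end MF

end FS

open FS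

theorem flip : FLIP := by
  rintro p _ V _ _ _ S Z J₁ J₂ hZ h₁ h₂ c₁ - hcm ⟨γ, hγ, hγ'⟩
  obtain ⟨M, s, h⟩ := h₁.exists_mf
  haveI := Fintype.ofFinite M
  have hk := fun c : KZ hZ => (MF.kz_mem hZ c₁ c).1
  let ρ : KZ hZ →+* Module.End (ZMod p) M :=
    { toFun := fun x => rres M x.1
      map_one' := h.toSub.one h₁.mem
      map_mul' := fun x y => h.toSub.mul (hk x) (hk y)
      map_zero' := h.toSub.zero
      map_add' := fun x y => h.toSub.add (hk x) (hk y) }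
  letI : Module (KZ hZ) M := Module.compHom M ρ
  have hsm : ∀ (c : KZ hZ) (u : M), c • u = rres M c.1 u := fun _ _ => rfl
  obtain ⟨ε, b, hb, h0, hP, hε⟩ := h.exists_zform hZ h₁ c₁ hsm
  have hnd : ∀ x, (∀ y, b x y = 0) → x = 0 :=
    h.nondeg' h₁ (B := (LinearMap.toAddMonoidHom').comp b) hP
      (fun x y (e : b x y = 0) => show b y x = 0 by rw [hε.herm, e, map_zero, mul_zero])
      fun e => h0 (AddMonoidHom.ext fun x => LinearMap.ext fun y =>
        congrArg (fun f : M →+ M →+ KZ hZ => f x y) e)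
  obtain ⟨r, f, hr, hf, hm, hsp⟩ := h.exists_br hZ h₁ c₁ hsm hb h0 hP hε hnd
  have hA : J₁ ≤ S.cent Z 1 := fun x hx => mem_cent_one.2 fun d hd => ((c₁.ge hd).2.2.2 x hx).symm
  let τ : KZ hZ →+* KZ hZ :=
    { toFun := fun x => ⟨γ⁻¹.1 * x.1 * γ.1, gam_Z' hZ hγ x.2⟩
      map_one' := Subtype.ext (by show γ⁻¹.1 * 1 * γ.1 = 1; simp)
      map_mul' := fun x y => Subtype.ext (by
        show γ⁻¹.1 * (x.1 * y.1) * γ.1 = γ⁻¹.1 * x.1 * γ.1 * (γ⁻¹.1 * y.1 * γ.1)
        simp [mul_assoc])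
      map_zero' := Subtype.ext (by show γ⁻¹.1 * 0 * γ.1 = 0; simp)
      map_add' := fun x y => Subtype.ext (by
        show γ⁻¹.1 * (x.1 + y.1) * γ.1 = γ⁻¹.1 * x.1 * γ.1 + γ⁻¹.1 * y.1 * γ.1
        rw [mul_add, add_mul]) }
  let c : S.E →+* S.E :=
    { toFun := fun x => γ.1 * x * γ⁻¹.1
      map_one' := by simp
      map_mul' := fun x y => by simp [mul_assoc]
      map_zero' := by simp
      map_add' := fun x y => by rw [mul_add, add_mul] }
  have hcτ : ∀ a, c (KZ.ι hZ (τ a)) = KZ.ι hZ a := fun a => by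
    show γ.1 * (γ⁻¹.1 * a.1 * γ.1) * γ⁻¹.1 = a.1
    simp [mul_assoc]
  have hm₂ : ∀ x y, c (r x y) ∈ J₂ := fun x y => (hγ' _).1 (hm x y)
  obtain ⟨t, t1, t2, t3, t4, t5⟩ := flip_main (KZ.sc hZ) hb hε hnd S.st_mul hr hf τ
    (fun a => Subtype.ext (by
      have := gam_st hZ (inv_mem hγ) (hZ.le_cent a.2)
      rw [inv_inv] at this
      exact this.symm))
    (fun a a' e => Subtype.ext ((hcτ a).symm.trans (e ▸ hcτ a'))) c hcτ
    (fun x y => gam_st hZ hγ (hA (hm x y)))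
    fun x y x' y' => ((hcm (hm₂ x' y')).2.2 _ (hm x y)).symm
  refine ⟨t, t1 (J₁ ⊔ J₂).toAddSubgroup fun x y x' y' =>
    (J₁ ⊔ J₂).mul_mem ((le_sup_left : J₁ ≤ J₁ ⊔ J₂) (hm _ _))
    ((le_sup_right : J₂ ≤ J₁ ⊔ J₂) (hm₂ _ _)), t2, t3, fun x => ⟨fun hx => ?_, fun hx => ?_⟩⟩
  · obtain ⟨g, rfl⟩ := hsp x hx
    rw [mul_sum, sum_mul]
    refine sum_mem fun u _ => ?_
    obtain ⟨x', y', e⟩ := t4 u (g u)
    exact e ▸ hm₂ _ _
  · have e1 : c (γ⁻¹.1 * (t * x * t) * γ.1) = t * x * t := by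
      show γ.1 * (γ⁻¹.1 * (t * x * t) * γ.1) * γ⁻¹.1 = _
      simp [mul_assoc]
    obtain ⟨g, hg⟩ := hsp _ ((hγ' _).2 (show c _ ∈ J₂ from e1.symm ▸ hx))
    have e2 : x = t * (t * x * t) * t := by
      rw [← mul_assoc, ← mul_assoc, t2, one_mul, mul_assoc, t2, mul_one]
    rw [e2, ← e1, hg, map_sum, mul_sum, sum_mul]
    refine sum_mem fun u _ => ?_
    obtain ⟨x', y', e⟩ := t5 u (g u)
    exact e ▸ hm _ _

end Vale.Agent.P183NK
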