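import Vale.Agent.P183RL.Ring

/-!
The smallest faithful module of a simple ring with involution.
-/

set_option autoImplicit false
set_option linter.all false

namespace Vale.Agent.P183NK

open Vale.Agent.P183A

variable {p : ℕ} [Fact p.Prime] {V : Type} [AddCommGroup V] [Module (ZMod p) V]

open Classical in
/-- the restriction of an endomorphism to an invariant subspace -/
noncomputable def rres (M : Submodule (ZMod p) V) (x : Module.End (ZMod p) V) :
    Module.End (ZMod p) M := if h : ∀ v ∈ M, x v ∈ M then x.restrict h else 0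

lemma rres_apply {M : Submodule (ZMod p) V} {x : Module.End (ZMod p) V} (h : ∀ v ∈ M, x v ∈ M)
    (u : M) : (rres M x u : V) = x u := by
  rw [rres, dif_pos h]; rfl

namespace FS

variable {S : FS p V}

/-- `M` is a `J`-submodule of `e V` -/
structure Sub (S : FS p V) (J : S.NR) (e : S.E) (M : Submodule (ZMod p) V) : Prop where
  inv : ∀ x ∈ J, ∀ v ∈ M, x v ∈ M
  le : ∀ v ∈ M, e v = v

namespace Sub

variable {J : S.NR} {e : S.E} {M : Submodule (ZMod p) V} (h : S.Sub J e M)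
include h

lemma app {x : S.E} (hx : x ∈ J) (u : M) : (rres M x u : V) = x u := rres_apply (h.inv x hx) u

lemma add {x y : S.E} (hx : x ∈ J) (hy : y ∈ J) : rres M (x + y) = rres M x + rres M y := by
  ext u
  rw [h.app (add_mem hx hy), LinearMap.add_apply, LinearMap.add_apply, Submodule.coe_add, h.app hx,
    h.app hy]

lemma mul {x y : S.E} (hx : x ∈ J) (hy : y ∈ J) : rres M (x * y) = rres M x * rres M y := by
  ext u
  rw [h.app (mul_mem hx hy), Module.End.mul_apply, Module.End.mul_apply, h.app hx, h.app hy]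

lemma zero : rres M (0 : S.E) = 0 := by
  ext u
  rw [h.app (zero_mem J)]; rfl

lemma one (he : e ∈ J) : rres M e = 1 := by
  ext u
  rw [h.app he, h.le u u.2]; rfl

lemma sub {x y : S.E} (hx : x ∈ J) (hy : y ∈ J) : rres M (x - y) = rres M x - rres M y := by
  rw [eq_sub_iff_add_eq, ← h.add (sub_mem hx hy) hy, sub_add_cancel]

theorem density [Finite V] (hJ : S.Simp J e) (f : Module.End (ZMod p) M)
    (hf : ∀ d : Module.End (ZMod p) M, (∀ x ∈ J, d * rres M x = rres M x * d) → f * d = d * f) :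
    ∃ x ∈ J, rres M x = f := by
  haveI := hJ.semisimple
  let ρ : LR hJ.toLoc →+* Module.End (ZMod p) M :=
    { toFun := fun x => rres M x.1
      map_one' := h.one hJ.mem
      map_mul' := fun x y => h.mul x.2 y.2
      map_zero' := h.zero
      map_add' := fun x y => h.add x.2 y.2 }
  obtain ⟨x, hx⟩ := rl_density ρ f fun d hd => hf d fun x hx => hd ⟨x, hx⟩
  exact ⟨x.1, x.2, hx⟩

end Sub

/-- a minimal nonzero submodule -/
structure MinS (S : FS p V) (J : S.NR) (e : S.E) (M : Submodule (ZMod p) V) : Prop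
    extends S.Sub J e M where
  ne : M ≠ ⊥
  min : ∀ N ≤ M, (∀ x ∈ J, ∀ v ∈ N, x v ∈ N) → N = ⊥ ∨ N = M

lemma exists_minS [Finite V] {J : S.NR} {e η : S.E} (h : S.Loc J e) (hη : η ∈ S.ctr J e)
    (h0 : η ≠ 0) (hi : η * η = η) : ∃ M, S.MinS J e M ∧ ∀ v ∈ M, η v = v := by
  obtain ⟨M, hM, hmin⟩ := exists_minimal_of_wellFoundedLT
    (fun M : Submodule (ZMod p) V => M ≠ ⊥ ∧ (∀ x ∈ J, ∀ v ∈ M, x v ∈ M) ∧ ∀ v ∈ M, η v = v)
    ⟨LinearMap.range η, fun e0 => h0 (LinearMap.range_eq_bot.1 e0), by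
      rintro x hx _ ⟨v, rfl⟩
      exact ⟨x v, by rw [← Module.End.mul_apply, hη.2.2.2 x hx]; rfl⟩,
      fun v hv => (mem_range_idem hi).1 hv⟩
  refine ⟨M, ⟨⟨hM.2.1, fun v hv => ?_⟩, hM.1, fun N hN hN' => ?_⟩, hM.2.2⟩
  · rw [← hM.2.2 v hv, ← Module.End.mul_apply, hη.2.1]
  · by_cases e0 : N = ⊥
    · exact Or.inl e0
    · exact Or.inr (le_antisymm hN (hmin ⟨e0, hN', fun v hv => hM.2.2 v (hN hv)⟩ hN))

lemma MinS.gen {J : S.NR} {e : S.E} {M : Submodule (ZMod p) V} (h : S.MinS J e M) (he : e ∈ J)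
    {m : V} (hm : m ∈ M) (h0 : m ≠ 0) : ∀ u ∈ M, ∃ x ∈ J, x m = u := by
  let N : Submodule (ZMod p) V :=
    { carrier := {u | ∃ x ∈ J, x m = u}
      add_mem' := by
        rintro _ _ ⟨a, ha, rfl⟩ ⟨b, hb, rfl⟩
        exact ⟨a + b, add_mem ha hb, rfl⟩
      zero_mem' := ⟨0, zero_mem _, rfl⟩
      smul_mem' := by
        rintro c _ ⟨a, ha, rfl⟩
        exact ⟨c • a, smul_mem c ha, rfl⟩ }
  rcases h.min N (by rintro _ ⟨a, ha, rfl⟩; exact h.inv a ha m hm) (by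
    rintro x hx _ ⟨a, ha, rfl⟩
    exact ⟨x * a, mul_mem hx ha, rfl⟩) with e1 | e1
  · exact absurd (e1.le (show m ∈ N from ⟨e, he, h.le m hm⟩)) h0
  · exact fun u hu => e1.ge hu

/-- endomorphisms commute on a minimal submodule that they preserve -/
lemma MinS.comm [Finite V] {J : S.NR} {e : S.E} {M N : Submodule (ZMod p) V} (h : S.MinS J e N)
    (hM : S.Sub J e M) (hN : N ≤ M) {c d : Module.End (ZMod p) M}
    (hc : ∀ x ∈ J, c * rres M x = rres M x * c) (hd : ∀ x ∈ J, d * rres M x = rres M x * d)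
    (hc' : ∀ u : M, u.1 ∈ N → (c u).1 ∈ N) (hd' : ∀ u : M, u.1 ∈ N → (d u).1 ∈ N) (u : M)
    (hu : u.1 ∈ N) : c (d u) = d (c u) := by
  let r : ∀ c : Module.End (ZMod p) M, (∀ u : M, u.1 ∈ N → (c u).1 ∈ N) → Module.End (ZMod p) N :=
    fun c hc => (M.subtype ∘ₗ c ∘ₗ Submodule.inclusion hN).codRestrict N fun u => hc _ u.2
  have h1 : ∀ (c : Module.End (ZMod p) M) (hc' : ∀ u : M, u.1 ∈ N → (c u).1 ∈ N),
      (∀ x ∈ J, c * rres M x = rres M x * c) → ∀ x ∈ rres N '' J, r c hc' * x = x * r c hc' := by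
    rintro c hc' hc _ ⟨x, hx, rfl⟩
    ext v
    have e1 : Submodule.inclusion hN (rres N x v) = rres M x (Submodule.inclusion hN v) :=
      Subtype.ext ((h.toSub.app hx v).trans (hM.app hx (Submodule.inclusion hN v)).symm)
    show (c (Submodule.inclusion hN (rres N x v))).1 = (rres N x (r c hc' v)).1
    rw [e1, ← Module.End.mul_apply, hc x hx, Module.End.mul_apply, hM.app hx, h.toSub.app hx]
    rfl
  have := rl_schur (rres N '' J) (fun K hK => by
    rcases h.min (K.map N.subtype) (N.map_subtype_le K) (by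
      rintro x hx _ ⟨v, hv, rfl⟩
      exact ⟨_, hK _ ⟨x, hx, rfl⟩ v hv, h.toSub.app hx v⟩) with e1 | e1
    · exact Or.inl (Submodule.map_injective_of_injective N.injective_subtype
        (e1.trans (Submodule.map_bot _).symm))
    · exact Or.inr (Submodule.map_injective_of_injective N.injective_subtype
        (e1.trans N.map_subtype_top.symm))) (h1 c hc' hc) (h1 d hd' hd)
  exact Subtype.ext (congrArg (fun g : Module.End (ZMod p) N => (g ⟨u.1, hu⟩).1) this)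

/-- the data of the smallest faithful module before the section is chosen -/
structure MF0 (S : FS p V) (J : S.NR) (e : S.E) (M : Submodule (ZMod p) V) (m : V) : Prop
    extends S.Sub J e M where
  mem : m ∈ M
  gen : ∀ u ∈ M, ∃ x ∈ J, x m = u
  faith : ∀ x ∈ J, (∀ u ∈ M, x u = 0) → x = 0
  subm : ∀ N ≤ M, (∀ x ∈ J, ∀ v ∈ N, x v ∈ N) →
    N = ⊥ ∨ N = M ∨ ∃ η, S.Spl (S.ctr J e) e η ∧ ∀ u ∈ M, η u ∈ N
  comm : ∀ c d : Module.End (ZMod p) M, (∀ x ∈ J, c * rres M x = rres M x * c) →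
    (∀ x ∈ J, d * rres M x = rres M x * d) → c * d = d * c

lemma Simp.faith {J : S.NR} {e : S.E} (h : S.Simp J e) {M : Submodule (ZMod p) V}
    (hM : S.Sub J e M) (h0 : M ≠ ⊥) (h1 : ∀ η, S.Spl (S.ctr J e) e η → ∃ u ∈ M, S.st η u ≠ 0) :
    ∀ x ∈ J, (∀ u ∈ M, x u = 0) → x = 0 := by
  rcases h.dich (R := S.idl J (fun x => ∀ u ∈ M, x u = 0) (fun _ _ => rfl)
      (fun x y hx hy u hu => by rw [LinearMap.add_apply, hx u hu, hy u hu, add_zero])
      (fun x hx u hu => by rw [LinearMap.neg_apply, hx u hu, neg_zero])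
      (fun x _ hx y _ u hu => by rw [Module.End.mul_apply, hx u hu, map_zero]))
      (idl_idl fun x _ hx y hy u hu => hx _ (hM.inv y hy u hu)) with e1 | ⟨η, hη, -, -, h2, h3, e1 | e1⟩
  · exact absurd (eq_bot_iff.2 fun u hu => (hM.le u hu).symm.trans ((e1.ge h.mem).2 u hu)) h0
  · exact fun x hx hx' => by rw [← h.left x hx, ← e1, h3 x ⟨hx, hx'⟩]
  · obtain ⟨u, hu, hu'⟩ := h1 η e1
    exact absurd (by rw [← h2.2 u hu, ← e1.add, add_sub_cancel_left]) hu'

namespace Spl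

variable {J : S.NR} {e η : S.E} (h : S.Simp J e) (s : S.Spl (S.ctr J e) e η)
include h s

lemma cmul' : S.st η * η = 0 := by rw [← h.ctr_comm s.mem (h.toLoc.ctr.star η s.mem), s.mul]

lemma cidem : η * η = η := by
  conv_rhs => rw [← h.right η s.mem.1, ← s.add, mul_add, s.mul, add_zero]

lemma cstar : S.Spl (S.ctr J e) e (S.st η) :=
  ⟨h.toLoc.ctr.star η s.mem, by rw [st_st, add_comm, s.add], by rw [st_st, s.cmul' h]⟩

lemma cne : η ≠ 0 := by
  rintro rfl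
  exact h.ne (by simpa using s.add.symm)

end Spl

theorem Simp.exists_mf0 [Finite V] {J : S.NR} {e : S.E} (h : S.Simp J e) :
    ∃ M m, S.MF0 J e M m := by
  by_cases hs : ∃ η, S.Spl (S.ctr J e) e η
  swap
  · obtain ⟨M, hM, -⟩ := exists_minS h.toLoc h.toLoc.ctr.mem h.ne h.toLoc.idem
    obtain ⟨m, hm, h0⟩ := (Submodule.ne_bot_iff M).1 hM.ne
    exact ⟨M, m, hM.toSub, hm, hM.gen h.mem hm h0,
      h.faith hM.toSub hM.ne fun η hη => absurd ⟨η, hη⟩ hs,
      fun N hN hN' => (hM.min N hN hN').imp id Or.inl,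
      fun c d hc hd => LinearMap.ext fun u => hM.comm hM.toSub le_rfl hc hd (fun u _ => (c u).2)
        (fun u _ => (d u).2) u u.2⟩
  obtain ⟨η, s⟩ := hs
  have s' := s.cstar h
  obtain ⟨M₁, h₁, e₁⟩ := exists_minS h.toLoc s.mem (s.cne h) (s.cidem h)
  obtain ⟨M₂, h₂, e₂⟩ := exists_minS h.toLoc s'.mem (s'.cne h) (s'.cidem h)
  obtain ⟨m₁, hm₁, n₁⟩ := (Submodule.ne_bot_iff M₁).1 h₁.ne
  obtain ⟨m₂, hm₂, n₂⟩ := (Submodule.ne_bot_iff M₂).1 h₂.ne
  have z₁ : ∀ v ∈ M₁, S.st η v = 0 := fun v hv => by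
    rw [← e₁ v hv, ← Module.End.mul_apply, s.cmul' h]; rfl
  have z₂ : ∀ v ∈ M₂, η v = 0 := fun v hv => by
    rw [← e₂ v hv, ← Module.End.mul_apply, s.mul]; rfl
  have p₁ : ∀ v ∈ M₁ ⊔ M₂, η v ∈ M₁ := fun v hv => by
    obtain ⟨a, ha, b, hb, rfl⟩ := Submodule.mem_sup.1 hv
    rwa [map_add, e₁ a ha, z₂ b hb, add_zero]
  have p₂ : ∀ v ∈ M₁ ⊔ M₂, S.st η v ∈ M₂ := fun v hv => by
    obtain ⟨a, ha, b, hb, rfl⟩ := Submodule.mem_sup.1 hv
    rwa [map_add, z₁ a ha, e₂ b hb, zero_add]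
  have hM : S.Sub J e (M₁ ⊔ M₂) := ⟨fun x hx v hv => by
    obtain ⟨a, ha, b, hb, rfl⟩ := Submodule.mem_sup.1 hv
    rw [map_add]
    exact Submodule.add_mem_sup (h₁.inv x hx a ha) (h₂.inv x hx b hb), fun v hv => by
    obtain ⟨a, ha, b, hb, rfl⟩ := Submodule.mem_sup.1 hv
    rw [map_add, h₁.le a ha, h₂.le b hb]⟩
  have dec : ∀ v ∈ M₁ ⊔ M₂, η v + S.st η v = v := fun v hv => by
    rw [← LinearMap.add_apply, s.add, hM.le v hv]
  refine ⟨M₁ ⊔ M₂, m₁ + m₂, hM, Submodule.add_mem_sup hm₁ hm₂, fun u hu => ?_,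
    h.faith hM (fun e0 => h₁.ne (eq_bot_iff.2 (le_sup_left.trans e0.le))) fun θ t => ?_,
    fun N hN hN' => ?_, fun c d hc hd => LinearMap.ext fun u => ?_⟩
  · obtain ⟨x, hx, e1⟩ := h₁.gen h.mem hm₁ n₁ _ (p₁ u hu)
    obtain ⟨y, hy, e2⟩ := h₂.gen h.mem hm₂ n₂ _ (p₂ u hu)
    refine ⟨x * η + y * S.st η, add_mem (mul_mem hx s.mem.1) (mul_mem hy s'.mem.1), ?_⟩
    simp only [LinearMap.add_apply, Module.End.mul_apply, map_add, e₁ _ hm₁, e₂ _ hm₂, z₁ _ hm₁,
      z₂ _ hm₂, map_zero, add_zero, zero_add, e1, e2, dec u hu]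
  · by_contra hc
    push Not at hc
    have t' := t.cstar h
    have f : ∀ v ∈ M₁ ⊔ M₂, θ v = v := fun v hv => by
      conv_rhs => rw [← hM.le v hv, ← t.add, LinearMap.add_apply, hc v hv, add_zero]
    have k₁ := Submodule.mem_sup_left (T := M₂) hm₁
    have k₂ := Submodule.mem_sup_right (S := M₁) hm₂
    obtain ⟨y, hy, e3⟩ := h.ctr_inv (add_mem (mul_mem s.mem t.mem) (mul_mem s'.mem t'.mem))
      (by rw [st_add, st_mul, st_mul, st_st, st_st, add_comm, h.ctr_comm s.mem t.mem,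
        h.ctr_comm s'.mem t'.mem]) (fun e0 => n₁ (by
        have := congrArg (fun g : S.E => g m₁) e0
        simpa [f _ k₁, hc _ k₁, e₁ _ hm₁] using this))
    rw [h.ctr_comm (add_mem (mul_mem s.mem t.mem) (mul_mem s'.mem t'.mem)) hy] at e3
    have := congrArg (fun g : S.E => g m₂) e3
    simp [f _ k₂, hc _ k₂, z₂ _ hm₂, h₂.le _ hm₂] at this
    exact n₂ this.symm
  · rcases h₁.min (N ⊓ M₁) inf_le_right (fun x hx v hv => ⟨hN' x hx v hv.1, h₁.inv x hx v hv.2⟩)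
      with a₁ | a₁
    · rcases h₂.min (N ⊓ M₂) inf_le_right (fun x hx v hv => ⟨hN' x hx v hv.1, h₂.inv x hx v hv.2⟩)
        with a₂ | a₂
      · refine Or.inl (eq_bot_iff.2 fun u hu => ?_)
        have b₁ : η u = 0 := a₁.le ⟨hN' η s.mem.1 u hu, p₁ u (hN hu)⟩
        have b₂ : S.st η u = 0 := a₂.le ⟨hN' _ s'.mem.1 u hu, p₂ u (hN hu)⟩
        rw [← dec u (hN hu), b₁, b₂, add_zero]
        exact zero_mem _
      · exact Or.inr (Or.inr ⟨_, s', fun u hu => (a₂.ge (p₂ u hu)).1⟩)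
    · exact Or.inr (Or.inr ⟨_, s, fun u hu => (a₁.ge (p₁ u hu)).1⟩)
  · have k : ∀ {θ : S.E} {K : Submodule (ZMod p) V}, θ ∈ J → (∀ v ∈ K, θ v = v) →
        (∀ v ∈ M₁ ⊔ M₂, θ v ∈ K) → ∀ c : Module.End (ZMod p) ↥(M₁ ⊔ M₂),
        (∀ x ∈ J, c * rres _ x = rres _ x * c) → ∀ u : ↥(M₁ ⊔ M₂), u.1 ∈ K → (c u).1 ∈ K := by
      intro θ K hθ a b c hc u hu
      have : u = rres _ θ u := Subtype.ext (by rw [hM.app hθ, a _ hu])
      rw [this, ← Module.End.mul_apply, hc θ hθ, Module.End.mul_apply, hM.app hθ]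
      exact b _ (c u).2
    have e3 : u = rres _ η u + rres _ (S.st η) u :=
      Subtype.ext (by rw [Submodule.coe_add, hM.app s.mem.1, hM.app s'.mem.1, dec _ u.2])
    rw [e3, Module.End.mul_apply, Module.End.mul_apply, map_add, map_add, map_add, map_add,
      h₁.comm hM le_sup_left hc hd (k s.mem.1 e₁ p₁ c hc) (k s.mem.1 e₁ p₁ d hd) _
        (by rw [hM.app s.mem.1]; exact p₁ _ u.2),
      h₂.comm hM le_sup_right hc hd (k s'.mem.1 e₂ p₂ c hc) (k s'.mem.1 e₂ p₂ d hd) _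
        (by rw [hM.app s'.mem.1]; exact p₂ _ u.2)]

/-- the smallest faithful module `M` with a section `s : M → J` -/
structure MF (S : FS p V) (J : S.NR) (e : S.E) (M : Submodule (ZMod p) V)
    (s : M →ₗ[ZMod p] S.E) : Prop extends S.Sub J e M where
  faith : ∀ x ∈ J, (∀ u ∈ M, x u = 0) → x = 0
  subm : ∀ N ≤ M, (∀ x ∈ J, ∀ v ∈ N, x v ∈ N) →
    N = ⊥ ∨ N = M ∨ ∃ η, S.Spl (S.ctr J e) e η ∧ ∀ u ∈ M, η u ∈ N
  com : ∀ d : Module.End (ZMod p) M, (∀ x ∈ J, d * rres M x = rres M x * d) →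
    ∃ z ∈ S.ctr J e, rres M z = d
  dens : ∀ f : Module.End (ZMod p) M, (∀ z ∈ S.ctr J e, f * rres M z = rres M z * f) →
    ∃ x ∈ J, rres M x = f
  s_mem : ∀ u, s u ∈ J
  s_mul : ∀ x ∈ J, ∀ u, s (rres M x u) = x * s u
  full : ∀ R, S.Idl J R → (∀ u, s u ∈ R) → R = J

theorem Simp.exists_mf [Finite V] {J : S.NR} {e : S.E} (h : S.Simp J e) :
    ∃ M s, S.MF J e M s := by
  obtain ⟨M, m, hM⟩ := h.exists_mf0
  obtain ⟨a, ha, a1, a2⟩ := h.exists_idem m
  rw [hM.le m hM.mem] at a1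
  choose! t ht ht' using hM.gen
  have key : ∀ x ∈ J, ∀ u ∈ M, x m = u → t u * a = x * a := fun x hx u hu e1 => by
    rw [← sub_eq_zero, ← sub_mul]
    exact a2 _ (sub_mem (ht u hu) hx) (by rw [LinearMap.sub_apply, ht' u hu, e1, sub_self])
  let s : M →+ S.E := AddMonoidHom.mk' (fun u => t u * a) fun u w => by
    rw [← add_mul]
    exact key _ (add_mem (ht u u.2) (ht w w.2)) _ (u + w).2 (by
      rw [LinearMap.add_apply, ht' u u.2, ht' w w.2]; rfl)
  have com : ∀ d : Module.End (ZMod p) M, (∀ x ∈ J, d * rres M x = rres M x * d) →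
      ∃ z ∈ S.ctr J e, rres M z = d := fun d hd => by
    obtain ⟨z, hz, rfl⟩ := hM.toSub.density h d fun c hc => hM.comm d c hd hc
    refine ⟨z, ⟨hz, h.left z hz, h.right z hz, fun x hx => sub_eq_zero.1
      (hM.faith _ (sub_mem (mul_mem hz hx) (mul_mem hx hz)) fun u hu => ?_)⟩, rfl⟩
    rw [← hM.toSub.app (sub_mem (mul_mem hz hx) (mul_mem hx hz)) ⟨u, hu⟩,
      hM.toSub.sub (mul_mem hz hx) (mul_mem hx hz), hM.toSub.mul hz hx, hM.toSub.mul hx hz, hd x hx,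
      sub_self]
    rfl
  refine ⟨M, s.toZModLinearMap p, hM.toSub, hM.faith, hM.subm, com,
    fun f hf => hM.toSub.density h f fun d hd => ?_, fun u => mul_mem (ht u u.2) ha,
    fun x hx u => ?_, fun R hR hs => ?_⟩
  · obtain ⟨z, hz, rfl⟩ := com d hd
    exact hf z hz
  · show t (rres M x u) * a = x * (t u * a)
    rw [← mul_assoc]
    exact key _ (mul_mem hx (ht u u.2)) _ (rres M x u).2 (by
      rw [Module.End.mul_apply, ht' u u.2, hM.toSub.app hx])
  · rcases h.dich hR with e1 | ⟨η, hη, h0, -, -, h1, -⟩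
    · exact e1
    · refine absurd (hM.faith η hη.1 fun u hu => ?_) h0
      have : (η * (t u * a)) m = 0 := by rw [h1 (t u * a) (hs ⟨u, hu⟩)]; rfl
      rwa [Module.End.mul_apply, Module.End.mul_apply, a1, ht' u hu] at this

end FS

end Vale.Agent.P183NK
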