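import Vale.Agent.P183RL.Defs
import Mathlib.RingTheory.SimpleModule.Basic
import Mathlib.RingTheory.Artinian.Module
import Mathlib.RingTheory.Jacobson.Ideal
import Mathlib.RingTheory.LittleWedderburn

/-!
Simple rings with involution: ideals, centre, semisimplicity, density.
-/

set_option autoImplicit false
set_option linter.all false

namespace Vale.Agent.P183NK

open Vale.Agent.P183A

/-- the density theorem for a finite representation of a semisimple ring -/
theorem rl_density {p : ℕ} [Fact p.Prime] {R M : Type} [Ring R] [IsSemisimpleRing R] [AddCommGroup M]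
    [Module (ZMod p) M] [Finite M] (ρ : R →+* Module.End (ZMod p) M) (f : Module.End (ZMod p) M)
    (hf : ∀ d : Module.End (ZMod p) M, (∀ x, d * ρ x = ρ x * d) → f * d = d * f) :
    ∃ x, ρ x = f := by
  letI : Module R M := Module.compHom M ρ
  haveI := Fintype.ofFinite M
  let F : Module.End (Module.End R M) M :=
    { toFun := f
      map_add' := f.map_add
      map_smul' := fun d m => by
        have := hf (d.toAddMonoidHom.toZModLinearMap p) fun x => LinearMap.ext fun v => d.map_smul x v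
        exact congrArg (fun g : Module.End (ZMod p) M => g m) this }
  obtain ⟨r, hr⟩ := jacobson_density F Finset.univ
  exact ⟨r, LinearMap.ext fun m => (hr m (Finset.mem_univ m)).symm⟩

/-- the lemma of Schur and the theorem of Wedderburn -/
theorem rl_schur {p : ℕ} [Fact p.Prime] {M : Type} [AddCommGroup M] [Module (ZMod p) M] [Finite M]
    (A : Set (Module.End (ZMod p) M))
    (hA : ∀ N : Submodule (ZMod p) M, (∀ x ∈ A, ∀ v ∈ N, x v ∈ N) → N = ⊥ ∨ N = ⊤)
    {c d : Module.End (ZMod p) M} (hc : ∀ x ∈ A, c * x = x * c) (hd : ∀ x ∈ A, d * x = x * d) :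
    c * d = d * c := by
  cases subsingleton_or_nontrivial M with
  | inl h => exact LinearMap.ext fun v => Subsingleton.elim _ _
  | inr h =>
    haveI : NoZeroDivisors (Subring.centralizer A) := ⟨fun {a b} e => by
      rcases hA (LinearMap.ker a.1) (fun x hx v hv => by
        rw [LinearMap.mem_ker] at hv ⊢
        rw [← Module.End.mul_apply, ← Subring.mem_centralizer_iff.1 a.2 x hx, Module.End.mul_apply, hv,
          map_zero]) with e1 | e1
      · refine Or.inr (Subtype.ext (LinearMap.ext fun v => LinearMap.ker_eq_bot.1 e1 ?_))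
        exact (congrArg (fun g : Subring.centralizer A => g.1 v) e).trans (map_zero _).symm
      · exact Or.inl (Subtype.ext (LinearMap.ker_eq_top.1 e1))⟩
    haveI : IsDomain (Subring.centralizer A) := NoZeroDivisors.to_isDomain _
    exact congrArg Subtype.val ((Finite.isDomain_to_isField (Subring.centralizer A)).mul_comm
      ⟨c, Subring.mem_centralizer_iff.2 fun x hx => (hc x hx).symm⟩
      ⟨d, Subring.mem_centralizer_iff.2 fun x hx => (hd x hx).symm⟩)

namespace FS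

variable {p : ℕ} [Fact p.Prime] {V : Type} [AddCommGroup V] [Module (ZMod p) V] {S : FS p V}

/-- `R` is a two-sided ideal of `J` -/
structure Idl (S : FS p V) (J R : S.NR) : Prop where
  le : R ≤ J
  right : ∀ x ∈ R, ∀ y ∈ J, x * y ∈ R
  left : ∀ x ∈ R, ∀ y ∈ J, y * x ∈ R

/-- an ideal given by its additive group -/
def idl (S : FS p V) (J : S.NR) (P : S.E → Prop) (h0 : P 0) (ha : ∀ x y, P x → P y → P (x + y))
    (hn : ∀ x, P x → P (-x)) (hl : ∀ x ∈ J, P x → ∀ y ∈ J, P (y * x)) : S.NR where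
  carrier := {x | x ∈ J ∧ P x}
  add_mem' := fun hx hy => ⟨add_mem hx.1 hy.1, ha _ _ hx.2 hy.2⟩
  zero_mem' := ⟨zero_mem _, h0⟩
  mul_mem' := fun hx hy => ⟨mul_mem hx.1 hy.1, hl _ hy.1 hy.2 _ hx.1⟩
  neg_mem' := fun hx => ⟨neg_mem hx.1, hn _ hx.2⟩

lemma idl_idl {J : S.NR} {P : S.E → Prop} {h0 : P 0} {ha : ∀ x y, P x → P y → P (x + y)}
    {hn : ∀ x, P x → P (-x)} {hl : ∀ x ∈ J, P x → ∀ y ∈ J, P (y * x)}
    (hr : ∀ x ∈ J, P x → ∀ y ∈ J, P (x * y)) : S.Idl J (S.idl J P h0 ha hn hl) :=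
  ⟨fun _ hx => hx.1, fun x hx y hy => ⟨mul_mem hx.1 hy, hr x hx.1 hx.2 y hy⟩,
    fun x hx y hy => ⟨mul_mem hy hx.1, hl x hx.1 hx.2 y hy⟩⟩

namespace Simp

variable {J : S.NR} {e : S.E} (h : S.Simp J e)
include h

lemma idl_cases {R : S.NR} (hR : S.Idl J R) (hs : ∀ x ∈ R, S.st x ∈ R) : R = ⊥ ∨ R = J :=
  h.simple R hR.le hs fun x hx y hy => ⟨hR.right x hx y hy, hR.left x hx y hy⟩

lemma eq_of_mem {R : S.NR} (hR : S.Idl J R) (he : e ∈ R) : R = J :=
  le_antisymm hR.le fun x hx => h.left x hx ▸ hR.right e he x hx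

/-- a proper ideal is zero or one of two factors exchanged by the involution -/
theorem dich {R : S.NR} (hR : S.Idl J R) : R = J ∨ ∃ η ∈ S.ctr J e, η ≠ 0 ∧ η * η = η ∧ e - η ∈ R ∧
    (∀ x ∈ R, η * x = 0) ∧ (η = e ∨ S.Spl (S.ctr J e) e η) := by
  by_cases hRJ : R = J
  · exact Or.inl hRJ
  right
  have h1 : ∀ x ∈ R, S.st x ∈ R → x = 0 := by
    rcases h.idl_cases (R := S.idl J (fun x => x ∈ R ∧ S.st x ∈ R) ⟨zero_mem _, by simp⟩
      (fun x y hx hy => ⟨add_mem hx.1 hy.1, by rw [st_add]; exact add_mem hx.2 hy.2⟩)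
      (fun x hx => ⟨neg_mem hx.1, by rw [st_neg]; exact neg_mem hx.2⟩)
      (fun x _ hx y hy => ⟨hR.left x hx.1 y hy, by
        rw [st_mul]; exact hR.right _ hx.2 _ (h.star y hy)⟩))
      (idl_idl fun x _ hx y hy => ⟨hR.right x hx.1 y hy, by
        rw [st_mul]; exact hR.left _ hx.2 _ (h.star y hy)⟩)
      (fun x hx => ⟨h.star x hx.1, hx.2.2, by rw [st_st]; exact hx.2.1⟩) with e1 | e1
    · exact fun x hx hx' => NonUnitalSubring.mem_bot.1 (e1.le ⟨hR.le hx, hx, hx'⟩)
    · exact absurd (h.eq_of_mem hR (e1.ge h.mem).2.1) hRJ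
  rcases h.idl_cases (R := S.idl J (fun x => ∃ a ∈ R, ∃ b ∈ R, x = a + S.st b)
      ⟨0, zero_mem _, 0, zero_mem _, by simp⟩
      (by
        rintro _ _ ⟨a, ha, b, hb, rfl⟩ ⟨c, hc, d, hd, rfl⟩
        exact ⟨a + c, add_mem ha hc, b + d, add_mem hb hd, by rw [st_add]; abel⟩)
      (by
        rintro _ ⟨a, ha, b, hb, rfl⟩
        exact ⟨-a, neg_mem ha, -b, neg_mem hb, by rw [st_neg]; abel⟩)
      (by
        rintro _ - ⟨a, ha, b, hb, rfl⟩ y hy
        exact ⟨y * a, hR.left a ha y hy, b * S.st y, hR.right b hb _ (h.star y hy), by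
          rw [st_mul, st_st, mul_add]⟩))
      (idl_idl (by
        rintro _ - ⟨a, ha, b, hb, rfl⟩ y hy
        exact ⟨a * y, hR.right a ha y hy, S.st y * b, hR.left b hb _ (h.star y hy), by
          rw [st_mul, st_st, add_mul]⟩))
      (by
        rintro _ ⟨hx, a, ha, b, hb, rfl⟩
        exact ⟨h.star _ hx, b, hb, a, ha, by rw [st_add, st_st, add_comm]⟩) with e1 | e1
  · have h2 : ∀ x ∈ R, x = 0 := fun x hx =>
      NonUnitalSubring.mem_bot.1 (e1.le ⟨hR.le hx, x, hx, 0, zero_mem _, by simp⟩)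
    exact ⟨e, h.toLoc.ctr.mem, h.ne, h.toLoc.idem, by simp, fun x hx => by rw [h2 x hx, mul_zero],
      Or.inl rfl⟩
  obtain ⟨-, a, ha, b, hb, he⟩ := e1.ge h.mem
  have hb' := h.star b (hR.le hb)
  have h2 : ∀ x ∈ R, S.st b * x = 0 := fun x hx => h1 _ (hR.left x hx _ hb') (by
    rw [st_mul, st_st]; exact hR.left b hb _ (h.star x (hR.le hx)))
  have h3 : ∀ x ∈ R, x * S.st b = 0 := fun x hx => h1 _ (hR.right x hx _ hb') (by
    rw [st_mul, st_st]; exact hR.right b hb _ (h.star x (hR.le hx)))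
  have h4 : S.st b ∈ S.ctr J e := by
    refine ⟨hb', h.left _ hb', h.right _ hb', fun y hy => ?_⟩
    calc S.st b * y = S.st b * (y * a) + S.st b * y * S.st b := by
          rw [← mul_assoc, ← mul_add, ← he, h.right _ (mul_mem hb' hy)]
      _ = (a * y) * S.st b + S.st b * y * S.st b := by
          rw [h2 _ (hR.left a ha y hy), h3 _ (hR.right a ha y hy)]
      _ = y * S.st b := by rw [← add_mul, ← add_mul, ← he, h.left y hy]
  have h5 : a = b := by
    have e2 : e = b + S.st a := by rw [← h.symm, he, st_add, st_st, add_comm]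
    have e3 : S.st a * a = 0 := h1 _ (hR.left a ha _ (h.star a (hR.le ha))) (by
      rw [st_mul, st_st]; exact hR.left a ha _ (h.star a (hR.le ha)))
    calc a = e * a := (h.left a (hR.le ha)).symm
      _ = b * a := by rw [e2, add_mul, e3, add_zero]
      _ = b := by rw [← add_zero (b * a), ← h3 b hb, ← mul_add, ← he, h.right b (hR.le hb)]
  subst h5
  refine ⟨S.st a, h4, fun e0 => hRJ (h.eq_of_mem hR (by rw [he, e0, add_zero]; exact ha)), ?_,
    by rw [he, add_sub_cancel_right]; exact ha, h2, Or.inr ⟨h4, by rw [st_st, add_comm, ← he],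
      by rw [st_st, h2 a ha]⟩⟩
  rw [← zero_add (S.st a * S.st a), ← h2 a ha, ← mul_add, ← he, h.right _ hb']

omit h in
/-- the ideal generated by a central element -/
def prin (_h : S.Simp J e) (x : S.E) : S.NR := S.idl J (fun y => ∃ d ∈ J, y = d * x) ⟨0, zero_mem _, by simp⟩
  (by
    rintro _ _ ⟨a, ha, rfl⟩ ⟨b, hb, rfl⟩
    exact ⟨a + b, add_mem ha hb, by rw [add_mul]⟩)
  (by
    rintro _ ⟨a, ha, rfl⟩
    exact ⟨-a, neg_mem ha, by rw [neg_mul]⟩)
  (by
    rintro _ - ⟨a, ha, rfl⟩ y hy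
    exact ⟨y * a, mul_mem hy ha, by rw [mul_assoc]⟩)

lemma prin_idl {x : S.E} (hx : x ∈ S.ctr J e) : S.Idl J (h.prin x) := idl_idl (by
  rintro _ - ⟨a, ha, rfl⟩ y hy
  exact ⟨a * y, mul_mem ha hy, by rw [mul_assoc, hx.2.2.2 y hy, mul_assoc]⟩)

lemma mem_prin {x : S.E} (hx : x ∈ J) : x ∈ h.prin x := ⟨hx, e, h.mem, (h.left x hx).symm⟩

theorem ctr_inv {x : S.E} (hx : x ∈ S.ctr J e) (hs : S.st x = x) (h0 : x ≠ 0) :
    ∃ y ∈ S.ctr J e, x * y = e := by
  rcases h.idl_cases (h.prin_idl hx) (by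
    rintro _ ⟨hy, a, ha, rfl⟩
    exact ⟨h.star _ hy, S.st a, h.star a ha, by rw [st_mul, hs, hx.2.2.2 _ (h.star a ha)]⟩) with e1 | e1
  · exact absurd (NonUnitalSubring.mem_bot.1 (e1.le (h.mem_prin hx.1))) h0
  obtain ⟨-, y, hy, e2⟩ := e1.ge h.mem
  have e3 : x * y = e := by rw [hx.2.2.2 y hy, e2]
  refine ⟨y, ⟨hy, h.left y hy, h.right y hy, fun d hd => ?_⟩, e3⟩
  calc y * d = y * d * (x * y) := by rw [e3, h.right _ (mul_mem hy hd)]
    _ = y * x * d * y := by rw [mul_assoc y x, hx.2.2.2 d hd]; simp only [mul_assoc]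
    _ = d * y := by rw [← e2, h.left d hd]

theorem ctr_red {x : S.E} (hx : x ∈ S.ctr J e) (h0 : x * x = 0) : x = 0 := by
  have h1 : ∀ y ∈ h.prin x, y * y = 0 := by
    rintro _ ⟨-, a, ha, rfl⟩
    rw [mul_assoc, ← mul_assoc x, hx.2.2.2 a ha, mul_assoc, h0, mul_zero, mul_zero]
  rcases h.dich (h.prin_idl hx) with e1 | ⟨η, hη, -, hi, h2, h3, -⟩
  · exact absurd (h.toLoc.idem.symm.trans (h1 e (e1.ge h.mem))) h.ne
  · have := h1 _ h2
    rw [mul_sub, sub_mul, sub_mul, h.toLoc.idem, h.right η hη.1, h.left η hη.1, hi, sub_self,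
      sub_zero, sub_eq_zero] at this
    rw [← h.left x hx.1, this, h3 x (h.mem_prin hx.1)]

lemma ctr_comm {x y : S.E} (hx : x ∈ S.ctr J e) (hy : y ∈ S.ctr J e) : x * y = y * x :=
  hx.2.2.2 y hy.1

/-- the centre is a ring of scalars as soon as it is compatible with `q` -/
theorem ctr_scal (hq : ∀ x ∈ S.ctr J e, ∀ y ∈ S.ctr J e, x * S.st x = y * S.st y →
    ∀ v, S.q (x v) = S.q (y v)) : S.Scal (S.ctr J e) e where
  toLoc := h.toLoc.ctr
  comm := fun _ hx _ hy => h.ctr_comm hx hy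
  red := fun _ hx => h.ctr_red hx
  inv := fun _ hx => h.ctr_inv hx
  compat := hq

/-- in the second kind there is a central element of trace one -/
theorem exists_tr (h2 : (2 : ZMod p) = 0) {x : S.E} (hx : x ∈ S.ctr J e) (hne : S.st x ≠ x) :
    ∃ θ ∈ S.ctr J e, θ + S.st θ = e := by
  have hx' := h.toLoc.ctr.star x hx
  have h1 : x + S.st x ≠ 0 := fun e0 => hne (by
    have : (2 : ZMod p) • x = 0 := by rw [h2, zero_smul]
    rw [two_smul] at this
    exact add_left_cancel (e0.trans this.symm))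
  obtain ⟨y, hy, e1⟩ := h.ctr_inv (add_mem hx hx') (by rw [st_add, st_st, add_comm]) h1
  have hy' := h.toLoc.ctr.star y hy
  have e2 : S.st y = y := by
    have := congrArg S.st e1
    rw [st_mul, st_add, st_st, h.symm, add_comm] at this
    rw [← h.right _ hy'.1, ← e1, ← mul_assoc, this, h.left y hy.1]
  exact ⟨x * y, mul_mem hx hy, by rw [st_mul, e2, h.ctr_comm hy hx', ← add_mul, e1]⟩

end Simp

/-- a local ring as a ring with identity -/
def LR {J : S.NR} {e : S.E} (_h : S.Loc J e) : Type := J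

instance {J : S.NR} {e : S.E} (h : S.Loc J e) : Ring (LR h) :=
  { (inferInstance : NonUnitalRing J) with
    one := ⟨e, h.mem⟩
    one_mul := fun x => Subtype.ext (h.left x.1 x.2)
    mul_one := fun x => Subtype.ext (h.right x.1 x.2) }

instance [Finite V] {J : S.NR} {e : S.E} (h : S.Loc J e) : Finite (LR h) :=
  inferInstanceAs (Finite J)

namespace Simp

variable {J : S.NR} {e : S.E} [Finite V] (h : S.Simp J e)
include h

theorem semisimple : IsSemisimpleRing (LR h.toLoc) := by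
  haveI : IsArtinianRing (LR h.toLoc) := isArtinian_of_finite
  haveI : Nontrivial (LR h.toLoc) := ⟨1, 0, fun e0 => h.ne (congrArg Subtype.val e0)⟩
  rw [IsArtinianRing.isSemisimpleRing_iff_jacobson]
  set N := Ring.jacobson (LR h.toLoc) with hN
  rcases h.dich (R := S.idl J (fun x => ∃ y ∈ N, y.1 = x) ⟨0, zero_mem _, rfl⟩
      (by
        rintro _ _ ⟨a, ha, rfl⟩ ⟨b, hb, rfl⟩
        exact ⟨a + b, add_mem ha hb, rfl⟩)
      (by
        rintro _ ⟨a, ha, rfl⟩
        exact ⟨-a, neg_mem ha, rfl⟩)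
      (by
        rintro _ - ⟨a, ha, rfl⟩ y hy
        exact ⟨_, N.mul_mem_left (show LR h.toLoc from ⟨y, hy⟩) ha, rfl⟩))
      (idl_idl (by
        rintro _ - ⟨a, ha, rfl⟩ y hy
        exact ⟨_, N.mul_mem_right (show LR h.toLoc from ⟨y, hy⟩) ha, rfl⟩)) with e1 | ⟨η, hη, -, hi, ⟨-, a, ha, h2⟩, h3, -⟩
  · obtain ⟨-, a, ha, h2⟩ := e1.ge h.mem
    have : a = 1 := Subtype.ext h2
    exact absurd ((Ideal.eq_top_iff_one _).2 (this ▸ ha)) (Ring.jacobson_lt_top _).ne
  · rw [hN, ← Ideal.jacobson_bot, Ideal.mem_jacobson_iff] at ha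
    obtain ⟨z, hz⟩ := ha (-1)
    have e2 : z * (1 - a) = 1 := by
      rw [Ideal.mem_bot, sub_eq_zero] at hz
      exact Eq.trans (by noncomm_ring) hz
    have e3 : z.1 * η = e := by
      have : z.1 * (e - a.1) = e := congrArg Subtype.val e2
      rwa [h2, sub_sub_cancel] at this
    have e4 : η = e := by rw [← e3, ← hi, ← mul_assoc, e3, hi, h.left η hη.1]
    refine eq_bot_iff.2 fun x hx => Subtype.ext ?_
    exact (h.left x.1 x.2).symm.trans (e4 ▸ h3 x.1 ⟨x.2, x, hx, rfl⟩)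

/-- the annihilator of a vector has a complement -/
theorem exists_idem (m : V) : ∃ a ∈ J, a m = e m ∧ ∀ x ∈ J, x m = 0 → x * a = 0 := by
  haveI := h.semisimple
  let I : Ideal (LR h.toLoc) :=
    { carrier := {x | x.1 m = 0}
      add_mem' := fun {a b} ha hb => by
        show (a.1 + b.1) m = 0
        rw [LinearMap.add_apply, ha, hb, add_zero]
      zero_mem' := rfl
      smul_mem' := fun c x hx => by
        show c.1 (x.1 m) = 0
        rw [hx, map_zero] }
  obtain ⟨f, hf, hI⟩ := IsSemisimpleRing.ideal_eq_span_idempotent I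
  have h1 : f.1 m = 0 := hI.ge (Ideal.mem_span_singleton_self f)
  refine ⟨e - f.1, sub_mem h.mem f.2, by rw [LinearMap.sub_apply, h1, sub_zero], fun x hx e0 => ?_⟩
  obtain ⟨y, hy⟩ := Submodule.mem_span_singleton.1 (hI.le (show (⟨x, hx⟩ : J) ∈ I from e0))
  have e1 : y.1 * f.1 = x := congrArg Subtype.val hy
  have e2 : f.1 * f.1 = f.1 := congrArg Subtype.val hf
  rw [mul_sub, h.right x hx, ← e1, mul_assoc, e2, sub_self]

end Simp

end FS

end Vale.Agent.P183NK
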